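import Vale.Agent.P354HI.Ql

/-!
The estimates in the tube and outside of the tube, in abstract form.
-/

open Filter Asymptotics

namespace Vale.Agent.P354HI

open Vale.Agent.P354XF (wd)
open Vale.Agent.P354XG (Der D_mul D_zero D_add D_sub D_neg D_alg D_one)

variable {A : Type} {P : Type*} {ι : Type} [CommRing A] [Algebra ℂ A] {φ : P → A →ₐ[ℂ] ℂ}
  {l l0 : Filter P} {a b ε η u : P → ℝ} {f g : A} {n m N : ℕ} [Fintype ι] {X : Der A}
  {c : A →+* A} {Bs Ws : A → Prop} {D : ι → Der A} {z : Fin 4 → A} {L : Fin 4 → Der A} {C : Set A}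

/-- The commutators of X with the letters. -/
def Cm (D : ι → Der A) (X : A → A) (u : ι → ι → A) : Prop :=
  ∀ i f, X (D i f) = D i (X f) + ∑ j, u i j * D j f

theorem o_br {X : A → A} {k : ι → A} {v : ι → ι → A} {α β : ℕ → P → ℝ} (hc : ∀ i j, D i (k j) = 0)
    (hX : ∀ i f, X (D i f) = D i (X f) + k i * D i f + ∑ j, v i j * D j f)
    (hu : ∀ i j, ∀ k < n, J φ l D k α (v i j)) (h : J φ l D n β f)
    (e : ∀ i j, i + j ≤ n → i < n → (fun p => α i p * β j p) =O[l] a) (w : List ι)
    (hw : w.length ≤ n) : O φ l a (br D X k w f) :=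
  ((J.br (Wt := fun _ _ => True) (sh := 0) (v := fun _ _ => 0) (α' := fun _ _ => 0) (s := 0) hc
    (fun _ _ _ _ => trivial) (fun i _ f _ => by rw [hX, zero_mul, add_zero]) hu
    (fun _ _ _ _ => .zero) trivial h e (fun _ _ _ => by simpa using isBigO_zero _ _) w).2 0
    (by omega)).val

theorem Cm.o {X : A → A} {v : ι → ι → A} (hX : Cm D X v)
    (hu : ∀ i j, ∀ k < n, J φ l D k (fun _ => a) (v i j)) (h : J φ l D n (fun _ => b) f)
    (w : List ι) (hw : w.length ≤ n) :
    O φ l (fun p => a p * b p) (X (wd D w f) - wd D w (X f)) := by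
  simpa [br] using o_br (X := X) (k := fun _ => 0) (fun _ _ => D_zero _)
    (fun i f => by rw [hX]; simp) hu h (fun _ _ _ _ => isBigO_refl _ _) w hw

theorem J.uu {κ : Type} [Fintype κ] {t : κ → A} (e : ∀ i, J φ l D n (fun _ => a) (t i)) (i : κ) :
    J φ l D (n + 1) (tp (n + 1) a (uu φ fun q : κ × List.Vector ι (n + 1) => P354XF.wd D q.2.1 (t q.1)))
      (t i) := .top (fun k hk => (e i).le (by omega)) fun w hw =>
  o_uu (fun q : κ × List.Vector ι (n + 1) => P354XF.wd D q.2.1 (t q.1)) (i, ⟨w, hw⟩)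

theorem J.vv {κ : Type} [Fintype κ] {t : κ → A} (e : ∀ i, J φ l D n (fun _ => a) (t i)) (i : κ) :
    J φ l D (n + 1) (tp (n + 1) a (vv φ fun q : κ × List.Vector ι (n + 1) => P354XF.wd D q.2.1 (t q.1)))
      (t i) := .top (fun k hk => (e i).le (by omega)) fun w hw =>
  o_vv (fun q : κ × List.Vector ι (n + 1) => P354XF.wd D q.2.1 (t q.1)) (i, ⟨w, hw⟩)

/-- **The estimate outside of the tube.** -/
theorem Cx.off (h : Cx φ l D X c Bs Ws z L C) (Λ : Ln φ l l0 X Bs) (hb : Λ.Int o1) {x : ι → A}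
    {γ : ι → ι → ι → A} (hX : ∀ f, X f = ∑ i, x i * D i f) (hγ : ∀ i, Cm D (D i) (γ i))
    (bγ : ∀ i j k, J φ l D N (fun _ => o1) (γ i j k)) (wx : ∀ i, Ws (x i))
    (hz : ∀ d, X (z d) ∈ C) (x1 : ∀ i, J φ l D 1 (fun _ => o1) (x i))
    (z1 : ∀ i d, O φ l o1 (D i (z d)))
    (G : ∀ n < N, ∀ u hu, (∀ i, x i ∈ topSub φ l D (n + 1) u hu) →
      (∀ f ∈ C, f ∈ topSub φ l D (n + 1) u hu) → ∀ i, X (x i) ∈ topSub φ l D (n + 1) u hu)
    (ix : ∀ i, J φ l0 D (N + 1) (fun _ => o1) (x i))
    (iz : ∀ i d, J φ l0 D N (fun _ => o1) (D i (z d))) (i : ι) (d : Fin 4) :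
    J φ l D N (fun _ => o1) (D i (z d)) := by
  let t : ι × (Fin 4 ⊕ ι) → A := fun q => D q.1 (Sum.elim z x q.2)
  have cm : Cm D X fun i j => ∑ k, x k * γ k i j - D i (x j) := fun i f => by
    rw [hX, hX f, map_sum]
    simp only [hγ _ i f, D_mul, mul_add, sub_mul, Finset.sum_add_distrib, Finset.sum_sub_distrib,
      Finset.mul_sum, Finset.sum_mul, mul_assoc, mul_comm (D _ f)]
    rw [Finset.sum_comm (f := fun k j => x k * (γ k i j * D j f))]
    ring
  suffices H : ∀ n ≤ N, ∀ q, J φ l D n (fun _ => o1) (t q) from H N le_rfl (i, .inl d)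
  intro n
  induction n with
  | zero =>
    rintro - ⟨i, d | j⟩
    exacts [.zero' (z1 i d), (x1 j).d i]
  | succ n ih =>
    intro hn q
    have k := J.uu (ih (by omega))
    have := Λ.ql h.cj h.re (V := fun _ : Empty => 0) (ε := 0) (κ := 1)
      (W := fun q : (ι × (Fin 4 ⊕ ι)) × List.Vector ι (n + 1) => P354XF.wd D q.2.1 (t q.1))
      (h.sum fun q => h.wd (h.ws _ _ (by rcases q.1.2 with d | j; exacts [h.wz d, wx j])) _)
      (h.sum fun q => q.elim) hb (fun _ => le_rfl) (isLittleO_zero _ _) (fun _ => le_rfl) ?_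
      (fun q => q.elim) (fun q => q.elim) fun ⟨⟨i, d⟩, w⟩ => ?_
    · exact ((k q).dn (o1_uu _)).mono le_rfl fun _ _ => this.1
    swap
    · rcases d with d | j
      exacts [iz i d _ (w.2.le.trans hn), (ix j).d i _ (w.2.le.trans hn)]
    generalize hW : uu (I := (ι × (Fin 4 ⊕ ι)) × List.Vector ι (n + 1)) φ _ = u at k ⊢
    have hu : (o1 : P → ℝ) =O[l] u := hW ▸ o1_uu _
    have kx : ∀ j, J φ l D (n + 2) (tp (n + 2) o1 u) (x j) := fun j =>
      .st (x1 j).val fun i => k (i, .inr j)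
    have kC : ∀ f ∈ C, f ∈ topSub φ l D (n + 1) u hu := fun f hf =>
      h.top hu (fun i d => k (i, .inl d)) hf
    have kv : ∀ i j, J φ l D (n + 1) (tp (n + 1) o1 u) (∑ k, x k * γ k i j - D i (x j)) :=
      fun i j => (J.sum _ fun k _ => (((kx k).low (by omega) (by omega)).bmul
        ((bγ k i j).le hn)).up hu).sub (k (i, .inr j))
    rintro ⟨⟨i, d⟩, w⟩
    refine O.mono (a := u) ?_ (by simpa [vv, sz] using isBigO_refl u l)
    rw [← sub_add_cancel (X _) (P354XF.wd D w.1 (X (t (i, d))))]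
    refine O.add (by simpa using cm.o (fun i j k hk => (kv i j).low hk hk.le) ((k _).dn hu) _ w.2.le)
      (J.mono (α := fun _ => u) ?_ le_rfl (fun _ _ => isBigO_refl _ _) _ w.2.le)
    rw [cm]
    refine J.add (J.dn (J.dt (n := n + 1) ?_ i) hu) (.sum _ fun j _ => (kv i j).tmul (k (j, d)) n.succ_pos
      (by simpa using hu) (by simpa using isBigO_refl _ _) (by simpa using isBigO_refl _ _))
    rcases d with d | j
    exacts [kC _ (hz d), G n hn u hu kx kC j]

/-- The first bound a, and the bounds α for the derivatives. -/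
def cons (a : P → ℝ) (α : ℕ → P → ℝ) : ℕ → P → ℝ
  | 0 => a
  | i + 1 => α i

/-- The data in the tube. -/
structure Tu (φ : P → A →ₐ[ℂ] ℂ) (l : Filter P) (D : ι → Der A) (X : Der A) (z : Fin 4 → A)
    (L : Fin 4 → Der A) (C : Set A) (Ws : A → Prop) (N : ℕ) (ε η b : P → ℝ) where
  Z : Der A
  R : ι
  x : A
  Rh : Fin 4 → A
  k : ι → A
  κ : ι → ι → A
  γ : ι → ι → A
  hX : ∀ f, X f = Z f + x * D R f
  hκ : Cm D Z κ
  hγ : Cm D (D R) γ
  bκ : ∀ i j, J φ l D N (fun _ => η) (κ i j)
  bγ : ∀ i j, J φ l D N (fun _ => o1) (γ i j)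
  xC : x ∈ C
  RC : ∀ d, Rh d ∈ C
  wR : ∀ d, Ws (Rh d - D R (z d))
  hz : ∀ i d, D i (X (z d) - x * Rh d) = 0
  hR : ∀ d, X (Rh d) = x * ∑ e, Rh e * L e (Rh d)
  kR : k R = 1
  k0 : ∀ i, i ≠ R → k i = 0
  bk : ∀ i, O φ l ε (D i x - k i)
  bx : O φ l b x
  bη : η =O[l] b
  b1 : b =O[l] (o1 : P → ℝ)
  e0 : ∀ p, 0 ≤ ε p
  e1 : ε =o[l] (o1 : P → ℝ)
  z1 : ∀ i d, O φ l o1 (D i (z d))

namespace Tu
variable (T : Tu φ l D X z L C Ws N ε η b)

/-- The damped quantity. -/
def y (d : Fin 4) : A := T.Rh d - D T.R (z d)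

theorem Zt (i : ι) (d : Fin 4) :
    T.Z (D i (z d)) = D i (T.x * T.y d) + ∑ j, T.κ i j * D j (z d) := by
  have := T.hz i d
  rw [T.hX] at this
  simp only [T.hκ i, y, D_sub, D_add, mul_sub] at this ⊢
  linear_combination this

theorem Xy (h : Cx φ l D X c Bs Ws z L C) (d : Fin 4) : X (T.y d) + T.y d =
    -((D T.R T.x - T.k T.R) * T.y d) - ∑ j, T.κ T.R j * D j (z d) +
      T.x * ∑ e, T.y e * L e (T.Rh d) := by
  have e := T.Zt T.R d
  have e' := h.dd _ (T.RC d) T.R
  rw [y, D_sub, T.hR, T.hX, e, T.kR]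
  simp only [y, D_mul, D_sub, sub_mul, Finset.sum_sub_distrib, e']
  ring

open Classical in
theorem cm (i : ι) (f : A) : X (D i f) = D i (X f) + -T.k i * D i f +
    ∑ j, (T.κ i j + T.x * T.γ i j - (D i T.x - T.k i) * T.k j) * D j f := by
  have e : ∀ s : A, ∑ j, s * T.k j * D j f = s * D T.R f := fun s => by
    rw [Finset.sum_eq_single T.R (fun j _ e => by rw [T.k0 j e, mul_zero, zero_mul]) (by simp),
      T.kR, mul_one]
  have e' : T.k i * D i f = T.k i * D T.R f := by
    by_cases k : i = T.R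
    · rw [k]
    · rw [T.k0 i k, zero_mul, zero_mul]
  simp only [T.hX, T.hκ i, T.hγ i, D_add, D_mul, add_mul, sub_mul _ _ (D _ f), mul_add,
    Finset.sum_add_distrib, Finset.sum_sub_distrib, e, neg_mul, e', mul_assoc T.x,
    ← Finset.mul_sum]
  ring

open Classical in
theorem ks (w : List ι) : ∃ s : ℝ, 1 ≤ s ∧ 1 - (w.map fun i => -T.k i).sum = algebraMap ℂ A s := by
  induction w with
  | nil => exact ⟨1, le_rfl, by simp⟩
  | cons i w ih =>
    obtain ⟨s, h, e⟩ := ih
    rw [List.map_cons, List.sum_cons]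
    by_cases k : i = T.R
    · exact ⟨s + 1, by linarith, by
        rw [k, T.kR, Complex.ofReal_add, map_add, ← e, Complex.ofReal_one, map_one]; ring⟩
    · exact ⟨s, h, by rw [T.k0 i k, ← e]; ring⟩

open Classical in
theorem dk (i j : ι) : D i (T.k j) = 0 := by
  by_cases k : j = T.R
  · rw [k, T.kR, D_one]
  · rw [T.k0 j k, D_zero]

theorem bk1 (i : ι) : J φ l D n (fun _ => o1) (T.k i) := by
  by_cases k : i = T.R
  · rw [k, T.kR]; simpa using J.alg (D := D) (φ := φ) (l := l) (m := n) 1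
  · rw [T.k0 i k]; exact .zero

end Tu

theorem int_o {b' : P → ℝ} (h : ∀ᶠ p in l, 0 ≤ b p) (h' : ∀ p, 0 ≤ b' p) :
    b =O[l] (fun p => b p + b' p) ∧ b' =O[l] fun p => b p + b' p :=
  ⟨.of_bound' (h.mono fun p e => by
      rw [Real.norm_of_nonneg e, Real.norm_of_nonneg (add_nonneg e (h' p))]; linarith [h' p]),
    .of_bound' (h.mono fun p e => by
      rw [Real.norm_of_nonneg (h' p), Real.norm_of_nonneg (add_nonneg e (h' p))]; linarith)⟩

/-- **The estimate in the tube.** -/
theorem Cx.tube (h : Cx φ l D X c Bs Ws z L C) (T : Tu φ l D X z L C Ws N ε η b)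
    (Λ : Ln φ l l0 X Bs) (hb : Λ.Int b) (iz : ∀ i d, J φ l0 D N (fun _ => o1) (D i (z d))) :
    ∀ n ≤ N, ∃ b', Λ.Int b' ∧ b =O[l] b' ∧ b' =O[l] (o1 : P → ℝ) ∧
      (∀ d, J φ l D n (fun _ => b') (T.y d)) ∧ ∀ i d, J φ l D n (fun _ => o1) (D i (z d)) := by
  intro n
  induction n with
  | zero =>
    intro _
    have y1 : ∀ d, O φ l o1 (T.y d) := fun d => (h.bd _ (T.RC d)).sub (T.z1 _ d)
    have v0 : ∀ p, 0 ≤ vv φ T.y p := fun _ => Real.sqrt_nonneg _
    have := Λ.ql h.cj h.re (W := fun _ : Empty => 0) (V := T.y) (κ := 1) (h.sum fun q => q.elim)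
      (h.sum T.wR) hb T.e0 T.e1 (fun _ => le_rfl) (fun q => q.elim) (fun d => ?_)
      (fun d => (y1 d).mono (o1_uu _)) fun q => q.elim
    · have k := int_o hb.1 v0
      exact ⟨_, this.2, k.1, T.b1.add (vv_o y1), fun d => .zero' ((o_vv _ d).mono k.2),
        fun i d => .zero' (T.z1 i d)⟩
    have k := int_o hb.1 fun p => mul_nonneg (T.e0 p) (v0 p)
    refine O.mono (a := fun p => b p + ε p * vv φ T.y p) ?_
      (by simpa [uu, sz, add_comm] using isBigO_refl _ l)
    rw [Pi.one_apply, Complex.ofReal_one, map_one, one_mul, T.Xy h]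
    exact ((((T.bk _).mul (o_vv _ d)).mono k.2).neg.sub (.sum _ fun j _ =>
      ((T.bκ _ j).val.mulb (T.z1 j d)).mono (T.bη.trans k.1))).add ((T.bx.mulb (.sum _ fun e _ =>
        (y1 e).bmul (h.bd _ (h.cl _ (T.RC d) e)))).mono k.1)
  | succ n ih =>
    intro hn
    obtain ⟨b', hb', k1, k2, ky, kz⟩ := ih (by omega)
    have kt := J.uu (t := fun q : ι × Fin 4 => D q.1 (z q.2)) fun q => kz q.1 q.2
    have kv := J.vv ky
    choose s hs es using T.ks
    have kR : ∀ f ∈ C, J φ l D (n + 1) (fun _ => o1) f := fun f hf =>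
      h.low (fun k hk i d => (kz i d).le (by omega)) hf
    have := Λ.ql h.cj h.re (κ := fun q => s q.2.1)
      (W := fun q : (ι × Fin 4) × List.Vector ι (n + 1) => P354XF.wd D q.2.1 (D q.1.1 (z q.1.2)))
      (V := fun q : Fin 4 × List.Vector ι (n + 1) => P354XF.wd D q.2.1 (T.y q.1))
      (h.sum fun q => h.wd (h.ws _ _ (h.wz _)) _) (h.sum fun q => h.wd (T.wR _) _) hb' T.e0 T.e1
      (fun _ => hs _)
    generalize hW : uu (I := (ι × Fin 4) × List.Vector ι (n + 1)) φ _ = u at kt this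
    generalize hV : vv (I := Fin 4 × List.Vector ι (n + 1)) φ _ = v at kv this
    have hu : (o1 : P → ℝ) =O[l] u := hW ▸ o1_uu _
    have u0 : ∀ p, 0 ≤ u p := fun p => hW ▸ Real.sqrt_nonneg _
    have v0 : ∀ p, 0 ≤ v p := fun p => hV ▸ Real.sqrt_nonneg _
    have yu : ∀ d, J φ l D (n + 1) (fun _ => u) (T.y d) := fun d =>
      ((kR _ (T.RC d)).mono le_rfl fun _ _ => hu).sub ((kt (T.R, d)).dn hu)
    have vu : v =O[l] u := hV ▸ vv_o fun q => yu _ _ q.2.2.le
    have kC : ∀ f ∈ C, J φ l D (n + 2) (tp (n + 2) o1 u) f := fun f hf =>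
      h.top hu (fun i d => kt (i, d)) hf
    have bu : b' =O[l] fun p => b' p * u p := by simpa using (isBigO_refl b' l).mul hu
    have eu : (fun p => η p * u p) =O[l] fun p => b' p * u p :=
      (T.bη.trans k1).mul (isBigO_refl _ _)
    have κt : ∀ i d, J φ l D (n + 1) (fun _ p => b' p * u p) (∑ j, T.κ i j * D j (z d)) :=
      fun i d => .sum _ fun j _ => ((T.bκ i j).le hn).mul ((kt (j, d)).dn hu) fun _ _ _ => eu
    have bu0 : ∀ᶠ p in l, 0 ≤ b' p * u p := hb'.1.mono fun p e => mul_nonneg e (u0 p)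
    have q1 := int_o bu0 v0
    have q2 := int_o bu0 fun p => mul_nonneg (T.e0 p) (v0 p)
    have q3 := int_o hb'.1 v0
    replace this := this ?_ ?_ (fun q => yu _ _ q.2.2.le) fun q => iz _ _ _ (q.2.2.le.trans hn)
    · refine ⟨_, this.2, k1.trans q3.1, k2.add (vu.trans this.1), fun d => (kv d).mono le_rfl
        fun i _ => ?_, fun i d => ((kt (i, d)).dn hu).mono le_rfl fun _ _ => this.1⟩
      unfold tp
      split_ifs
      exacts [q3.1, q3.2]
    · rintro ⟨⟨i, d⟩, w, hw⟩
      have e : X (P354XF.wd D w (D i (z d))) =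
          (T.Z (P354XF.wd D w (D i (z d))) - P354XF.wd D w (T.Z (D i (z d)))) +
          (P354XF.wd D (w ++ [i]) (T.x * T.y d) - T.x * P354XF.wd D (w ++ [i]) (T.y d)) +
          P354XF.wd D w (∑ j, T.κ i j * D j (z d)) + T.x *
          ((D T.R (P354XF.wd D w (D i (z d))) - P354XF.wd D w (D T.R (D i (z d)))) +
            P354XF.wd D w (D i (T.Rh d) + ∑ j, T.γ i j * D j (z d))) := by
        simp only [T.hX, T.Zt, T.hγ i, wd_app, P354XF.wd, wd_add, Tu.y, wd_sub]
        ring
      rw [e]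
      refine ((((T.hκ.o (fun i j k hk => (T.bκ i j).le (by omega)) ((kt (i, d)).dn hu) w hw.le).mono
        (eu.trans q1.1)).add (J.lb (n := n + 2) (α := tp (n + 1) o1 u) (β := tp (n + 1) b' v)
          (fun i k hk => ((kC _ T.xC).dt i).le (by omega)) (fun k hk => (kv d).le (by omega))
          (fun i j k => ?_) _ 0 (by simp [hw])).val).add ((κt i d w hw.le).mono q1.1)).add
        (((T.bx.mono k1).mul (O.add (a := u) ?_ (J.add (((kC _ (T.RC d)).dt i).dn hu) (.sum _
          fun j _ => ((T.bγ i j).le hn).bmul ((kt (j, d)).dn hu)) w hw.le))).mono q1.1)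
      · unfold tp
        split_ifs
        exacts [by simpa using bu.trans q1.1, by simpa using q1.2,
          by simpa only [mul_comm] using q1.1, by omega]
      · simpa using T.hγ.o (fun i j k hk => (T.bγ i j).le (by omega)) ((kt (i, d)).dn hu) w hw.le
    · rintro ⟨d, w, hw⟩
      have ξ : ∀ i, J φ l D (n + 1) (cons ε (tp n o1 u)) (D i T.x - T.k i) := fun i =>
        .succ (T.bk i) fun j => by
          rw [D_sub, T.dk, sub_zero]; exact ((kC _ T.xC).dt i).dt j
      have xx : J φ l D (n + 1) (cons b' fun _ => o1) T.x :=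
        .succ (T.bx.mono k1) fun j => (kR _ T.xC).d j
      have eb : (fun p => ε p * b' p) =O[l] fun p => b' p * u p := by
        simpa only [mul_comm] using (T.e1.isBigO.trans hu).mul (isBigO_refl b' l)
      have bb : (fun p => b' p * b' p) =O[l] fun p => b' p * u p :=
        (isBigO_refl b' l).mul (k2.trans hu)
      have bv : (fun p => b' p * v p) =O[l] fun p => b' p * u p := (isBigO_refl b' l).mul vu
      have q4 := int_o hb'.1 T.e0
      have e : X (P354XF.wd D w (T.y d)) + algebraMap ℂ A (s w) * P354XF.wd D w (T.y d) =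
          br D X (fun i => -T.k i) w (T.y d) + P354XF.wd D w (X (T.y d) + T.y d) := by
        rw [← es, br, wd_add]; ring
      refine O.mono (a := fun p => b' p * u p + ε p * v p) ?_
        (by simpa only [add_comm] using isBigO_refl _ l)
      rw [e, T.Xy h]
      refine (o_br (α := cons (fun p => b' p + ε p) fun _ => o1)
        (fun i j => by rw [D_neg, T.dk, neg_zero]) T.cm (fun i j k hk => ?_) (kv d)
        (fun i j k k' => ?_) w hw.le).add (J.add (α := fun _ p => b' p * u p + ε p * v p)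
          (((ξ _).mul (kv d) fun i j k => ?_).neg.sub ((κt _ d).mono le_rfl fun _ _ => q2.1))
          (xx.mul (β := tp (n + 1) b' fun p => b' p + v p) (.sum _ fun e _ => J.tb ((kv e).mono
            le_rfl fun i _ => ?_) (kR _ (h.cl _ (T.RC d) e)) q3.1) fun i j k => ?_) w hw.le)
      · refine (J.add (((T.bκ i j).le (by omega)).mono le_rfl fun i _ => ?_)
          ((xx.le hk.le).mul ((T.bγ i j).le (by omega)) fun i j _ => ?_)).sub
          (((ξ i).le hk.le).mul (T.bk1 j) fun i j e => ?_)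
        · cases i
          exacts [(T.bη.trans k1).trans q4.1, T.bη.trans T.b1]
        · rcases i with _ | i <;> rcases j with _ | j <;> simp only [cons, mul_one]
          exacts [q4.1, k2, isBigO_refl _ _, isBigO_refl _ _]
        · rcases i with _ | i <;> rcases j with _ | j <;> simp only [cons, mul_one]
          exacts [q4.2, T.e1.isBigO, by rw [tp_lt (by omega)], by rw [tp_lt (by omega)]]
      · rcases i with _ | i
        · simp only [cons, add_mul, tp]
          split_ifs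
          exacts [(bb.add eb).trans q2.1, (bv.trans q2.1).add q2.2]
        · rw [tp_lt (by omega)]
          simpa [cons] using bu.trans q2.1
      · rcases i with _ | i
        · simp only [cons, tp]
          split_ifs
          exacts [eb.trans q2.1, q2.2]
        · rw [tp_lt (n := n + 1) (by omega)]
          simp only [cons, tp]
          split_ifs
          exacts [by simpa using bu.trans q2.1, by simpa only [mul_comm] using q2.1]
      · unfold tp
        split_ifs
        exacts [isBigO_refl _ _, q3.2]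
      · rcases i with _ | i
        · simp only [cons, tp]
          split_ifs
          exacts [bb.trans q2.1, by simpa only [mul_add] using (bb.add bv).trans q2.1]
        · rw [tp_lt (by omega)]
          simpa [cons] using bu.trans q2.1

end Vale.Agent.P354HI
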