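import Vale.Agent.P354HI.Defs

/-!
HIGH: three more exact statements.
-/

open scoped ContDiff
open Set Filter Topology Complex

noncomputable section

namespace Vale.Agent.P354HI

open Vale.Agent.P354n (R4)
open Vale.Agent.P354XG Vale.Agent.P354XD Vale.Agent.P354XR
open Vale.Agent.P354XE (Tw rd eT Lo)
open Vale.Agent.P354YA (KU sG fT gT Ok2 dd ca cl cn cp)
open Vale.Agent.P354YT (Pm No)
open Vale.Agent.P354Z (f4)

/-- GJ: the jets of the metric are bounded by the jets of a null frame. -/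
def GJ : Prop := ∀ (A P ι : Type) [CommRing A] [Algebra ℂ A] (φ : P → A →ₐ[ℂ] ℂ) (l : Filter P)
  (D : ι → Der A) (S : Geo A) (F : Fr A) (N : ℕ), S.Is → F.Nl S →
    (∀ i d, J φ l D N (fun _ => o1) (fv F i d)) → (∀ b d, O φ l o1 (S.g b d)) →
    ∀ b d, J φ l D N (fun _ => o1) (S.g b d)

/-- CONV: from the jets along the frame to the derivatives in the chart. -/
def CONV : Prop := ∀ (M a : ℝ) (K : Tw → Set E6) (l : Filter (Pz K)) (N : ℕ),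
  (∀ᶠ p in nb ⊤ K, p.2 ∈ KU M a p.1) →
  (∀ i d, J (ev K) l (f4 (gT (nb ⊤ K) M a id)) N (fun _ => o1) (fv (fT (nb ⊤ K) M a id) i d)) →
  (∀ b d, O (ev K) l o1 ((sG (nb ⊤ K) id).g b d)) →
    ∃ C, ∀ᶠ p in l, P354XE.Bd N p.1.1 (pj p.1.2) C

/-- A class of bounded real functions of the base which do not depend on the time. -/
structure Kc {A P : Type} [CommRing A] [Algebra ℂ A] (φ : P → A →ₐ[ℂ] ℂ) (l : Filter P) (K : Hp A)
    (C : Set A) : Prop where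
  bd : ∀ f ∈ C, O φ l o1 f
  L : ∀ f ∈ C, ∀ d, K.L d f ∈ C
  H : ∀ f ∈ C, K.H f = 0
  B : ∀ f ∈ C, K.B f = 0
  T : ∀ f ∈ C, K.L 0 f = 0

section
variable {J : Type} (G : Filter (J × E6)) [Loc G]

/-- The functions which are smooth on r > r0 and do not depend on the time. -/
def KS (r0 : ℝ) : Set (Sm G) := {f | ∃ h : R4 → ℝ, ContDiffOn ℝ ∞ h {p | r0 < rd p} ∧
  (∀ p (t : ℝ), h (p + t • eT) = h p) ∧ f = kf G h}

/-- The radial field of the tube. -/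
def Rh (c : Pm) : Vec (Sm G) := vk G fun p => (1 / 2 : ℝ) • (Lo c.M c.a p - No p)

/-- The field X in the tube. -/
structure Tb (c : Pm) : Prop where
  mem : ∀ d, Rh G c d ∈ KS G (c.R1 - 1)
  X : vk G c.X = Hp.e0 _ + kf G (dd c) • Rh G c
  rad : ∑ d, Rh G c d * (hp G).L d (kf G (dd c)) = 1
  ca : kf G (ca c) = 1
  cl : kf G (cl c) = Geo.hf _ * kf G (dd c)
  cn : kf G (cn c) = -(Geo.hf _ * kf G (dd c))

end

/-- KCL: the functions of the scaffold. -/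
def KCL : Prop := ∀ c : Pm, Ok2 c → c.k = 1 → ∀ (K : Tw → Set E6) (r0 : ℝ), 0 ≤ r0 →
  (∀ᶠ p in nb ⊤ K, r0 < p.2.2.1 ∧ p.2.2.2 ≠ 0) →
    (∀ (l : Filter (Pz K)) r1 r2, r0 < r1 → (∀ᶠ p in l, p.1.2.2.1 ∈ Icc r1 r2) →
      Kc (ev K) l (hp _) (KS _ r0)) ∧
    (∀ d, vk (nb ⊤ K) c.X d ∈ KS _ r0 ∧ cj (vk (nb ⊤ K) c.X d) = vk (nb ⊤ K) c.X d) ∧
    (∀ h ∈ ({dd c, ca c, cl c, cn c, fun p => cp (dd c p), fun p => cp (-dd c p)} : Set (R4 → ℝ)),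
      kf (nb ⊤ K) h ∈ KS _ r0) ∧
    kf (nb ⊤ K) (dd c) = (hp _).z 1 - algebraMap ℂ _ c.R1 ∧
    (∀ p, ev K p (kf (nb ⊤ K) (dd c)) = dd c (pj p.1.2)) ∧
    ((∀ᶠ p in nb ⊤ K, |dd c (pj p.2)| < 1 / 4) → Tb (nb ⊤ K) c)

end Vale.Agent.P354HI
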