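import Vale.Agent.P354HI.Let
import Vale.Agent.P354HI.Props

/-!
The algebraic data of a zone, weights, and the estimate in the tube.
-/

open Filter Asymptotics

noncomputable section

namespace Vale.Agent.P354HI

open Vale.Agent.P354XF (wd Tv fr gam bar M)
open Vale.Agent.P354XG Vale.Agent.P354XD
open Vale.Agent.P354Z (f4)
open Vale.Agent.P354HK (of_gen conj_gz m_zi m_ze up_gz)

variable {A : Type} {P : Type} [CommRing A] [Algebra ℂ A] {φ : P → A →ₐ[ℂ] ℂ}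
  {l l0 : Filter P} {a b η ε : P → ℝ} {f g : A} {n m N L : ℕ} {p q p' q' : ℤ} {C : Set A}

/-- The weights. -/
def Wq (G : GHP A) (p q : ℤ) (f : A) : Prop := G.H f = p * f ∧ G.Hb f = q * f
def wp : Fin 6 → ℤ := ![1, -1, 1, -1, 0, 0]
def wq : Fin 6 → ℤ := ![1, -1, -1, 1, 0, 0]
def Ws (G : GHP A) (f : A) : Prop := ∃ s, Wq G s (-s) f

section wt
variable {G : GHP A}

theorem Wq.zero : Wq G p q 0 := ⟨by simp, by simp⟩
theorem Wq.alg (z : ℂ) : Wq G 0 0 (algebraMap ℂ A z) := ⟨by simp, by simp⟩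
theorem Wq.one : Wq G 0 0 1 := ⟨by simp, by simp⟩
theorem Wq.add (h : Wq G p q f) (h' : Wq G p q g) : Wq G p q (f + g) :=
  ⟨by rw [D_add, h.1, h'.1, mul_add], by rw [D_add, h.2, h'.2, mul_add]⟩
theorem Wq.neg (h : Wq G p q f) : Wq G p q (-f) :=
  ⟨by rw [D_neg, h.1, mul_neg], by rw [D_neg, h.2, mul_neg]⟩
theorem Wq.mul (h : Wq G p q f) (h' : Wq G p' q' g) : Wq G (p + p') (q + q') (f * g) :=
  ⟨by rw [D_mul, h.1, h'.1]; push_cast; ring, by rw [D_mul, h.2, h'.2]; push_cast; ring⟩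
theorem Wq.inv (h : Wq G p q f) (e : f * g = 1) : Wq G (-p) (-q) g :=
  ⟨by rw [D_inv _ e, h.1]; push_cast; linear_combination -p * g * e,
    by rw [D_inv _ e, h.2]; push_cast; linear_combination -q * g * e⟩
theorem Wq.to (h : Wq G p q f) (e : p = p') (e' : q = q') : Wq G p' q' f := e ▸ e' ▸ h
theorem Wq.cj (i : G.Is) (h : Wq G p q f) : Wq G q p (G.c f) :=
  ⟨by rw [i.H_c, h.2, map_mul, map_intCast], by rw [i.Hb_c, h.1, map_mul, map_intCast]⟩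

theorem Wq.fr (i : G.Is) (h : Wq G p q f) (b : Fin 6) : Wq G (p + wp b) (q + wq b) (fr G b f) := by
  have z : ∀ (D : Der A) (p : ℤ) (f : A), D (p * f) = p * D f := fun D p f => by
    rw [D_mul, D.map_intCast, mul_zero, add_zero]
  fin_cases b <;> constructor <;> simp only [P354XF.fr, wp, wq, Fin.reduceFinMk, Matrix.cons_val,
    i.H_th, i.Hb_th, i.H_tp, i.Hb_tp, i.H_et, i.Hb_et, i.H_ep, i.Hb_ep, h.1, h.2, z] <;>
    push_cast <;> ring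

theorem Ws.vf (i : G.Is) {x : Fin 6 → A} {s : ℤ} (hx : ∀ e, Wq G (s - wp e) (-s - wq e) (x e))
    (h : Ws G f) : Ws G (vf (fr G) x f) := by
  obtain ⟨t, h⟩ := h
  rw [vf_ap]
  exact ⟨s + t, Finset.sum_induction _ (Wq G _ _) (fun _ _ => Wq.add) .zero fun e _ =>
    ((hx e).mul (h.fr i e)).to (by ring) (by ring)⟩

end wt

/-- The data. -/
structure Dt (A : Type) [CommRing A] [Algebra ℂ A] where
  K : Hp A
  S : Geo A
  F : Fr A
  Pi : A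
  ze : A
  zi : A
  rt : A
  ni : A
  k : ℝ
  Ξ : Vec A
  kis : K.Is
  sL : S.L = K.L
  sH : S.H = K.H
  sB : S.Hb = K.B
  sis : S.Is
  wn : F.WN S
  h1 : (F.ghp S).P1 = 0
  h3 : (F.ghp S).P3 = 0
  inv : Pi * (3 * (F.ghp S).P2) = 1
  e1 : ze * zi = 1
  e3 : zi ^ 3 = (F.ghp S).P2
  er : rt = Geo.hf A * (algebraMap ℂ A k * (ze + S.c ze))
  en : (F.ghp S).tp rt * ni = 1
  cΞ : S.cv Ξ = Ξ

namespace Dt
variable (δ : Dt A)

def T : Tv A := ⟨δ.F.ghp δ.S, δ.Pi, Geo.WNull.is δ.sis δ.wn, δ.h1, δ.h3, δ.inv⟩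
def Bs (f : A) : Prop := δ.K.H f = 0 ∧ δ.K.B f = 0

theorem bs_iff : δ.Bs f ↔ Wq δ.T.G 0 0 f := by
  rw [Bs, ← δ.sH, ← δ.sB, Wq, Int.cast_zero, zero_mul]; rfl

theorem w_co (d : Fin 4) : Wq δ.T.G 0 0 (δ.K.co d) := δ.bs_iff.1 (δ.kis.tco d).2.2.2.2

theorem act_co (u : Op A) (d : Fin 4) : δ.S.act u (δ.K.co d) = u.X d := by
  simp [Geo.act_apply, δ.sL, δ.sH, δ.sB, δ.kis.L_co, δ.kis.tco d]

theorem fr_co (i d : Fin 4) : fr δ.T.G (i.castLE (by omega)) (δ.K.co d) = fv δ.F i d := by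
  fin_cases i <;> exact δ.act_co _ d

theorem vf_co (x : Fin 6 → A) (d : Fin 4) : vf (fr δ.T.G) x (δ.K.co d) = cb δ.F x d := by
  have e := δ.w_co d
  rw [Wq, Int.cast_zero, zero_mul] at e
  rw [vf_ap, Fin.sum_univ_six]
  exact (congrArg₂ (· + ·) (congrArg₂ (· + ·) (congrArg₂ (· + ·) (congrArg₂ (· + ·)
    (congrArg₂ (· + ·) (congrArg _ (δ.fr_co 0 d)) (congrArg _ (δ.fr_co 1 d)))
    (congrArg _ (δ.fr_co 2 d))) (congrArg _ (δ.fr_co 3 d))) (congrArg _ e.1))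
    (congrArg _ e.2)).trans (by simp [cb, fv])

theorem fr_bs (h : δ.Bs f) (b : Fin 6) :
    fr δ.T.G b f = ∑ d, fr δ.T.G b (δ.K.co d) * δ.K.L d f := by
  have e : ∀ u, δ.S.act u f = ∑ d, δ.S.act u (δ.K.co d) * δ.K.L d f := fun u => by
    simp only [δ.act_co]
    rw [Geo.act_apply, δ.sL, δ.sH, δ.sB, h.1, h.2, mul_zero, mul_zero, add_zero, add_zero]
  have e1 := fun d => (δ.w_co d).1
  have e2 := fun d => (δ.w_co d).2
  fin_cases b
  exacts [e _, e _, e _, e _, (δ.bs_iff.1 h).1.trans (by simp [fr, e1]),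
    (δ.bs_iff.1 h).2.trans (by simp [fr, e2])]

theorem vf_bs (h : δ.Bs f) (x : Fin 6 → A) :
    vf (fr δ.T.G) x f = ∑ d, vf (fr δ.T.G) x (δ.K.co d) * δ.K.L d f := by
  simp only [vf_ap, δ.fr_bs h, Finset.mul_sum, Finset.sum_mul, mul_assoc]
  exact Finset.sum_comm

theorem w_fv (i d : Fin 4) : W2 δ.T.G (fv δ.F i d) :=
  δ.fr_co i d ▸ ⟨_, _, (δ.w_co d).fr δ.T.is _⟩

theorem w_ze : Wq δ.T.G 0 0 δ.ze := by
  have k : ∀ D : Der A, D δ.T.G.P2 = 0 → D δ.ze = (0 : ℤ) * δ.ze := fun D h => by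
    have := congrArg D δ.e3
    rw [D_cube] at this
    have e : D δ.zi = 0 := by
      have i : δ.Pi * (3 * δ.zi ^ 3) = 1 := δ.e3 ▸ δ.inv
      linear_combination δ.Pi * δ.zi * (this.trans h) - D δ.zi * i
    rw [D_inv D ((mul_comm _ _).trans δ.e1), e]; simp
  exact ⟨k _ δ.T.is.H_P2, k _ δ.T.is.Hb_P2⟩

theorem w_rt : Wq δ.T.G 0 0 δ.rt :=
  δ.er ▸ ((Wq.alg _).mul ((Wq.alg _).mul (δ.w_ze.add (δ.w_ze.cj δ.T.is))))

theorem c_rt : δ.T.G.c δ.rt = δ.rt := by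
  rw [δ.er]
  change δ.S.c _ = _
  simp only [map_mul, map_add, δ.sis.cc, Fr.c_hf δ.sis, δ.sis.calg, Complex.conj_ofReal, add_comm]

theorem m_rt : M (gz δ.T δ.zi) 0 0 0 0 δ.rt :=
  δ.er ▸ (((m_ze δ.e1 δ.e3).add (conj_gz (m_ze δ.e1 δ.e3))).cmul _).cmul _

theorem m_fr {j s : ℕ} (h : M (gz δ.T δ.zi) j n s 0 f) (b : Fin 6) :
    M (gz δ.T δ.zi) (j + 1) (n + 1) s 0 (fr δ.T.G b f) := h.der (up_gz δ.e3 b)

theorem c_un {v : A} (b : Fin 6) (hb : bar b = b) (e : fr δ.T.G b δ.rt * v = 1) :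
    δ.T.G.c v = v := Fr.c_inv δ.sis e ((c_fr δ.T b _).trans (by rw [hb, δ.c_rt]))

/-- The context of the estimates. -/
theorem cx (hc : Cj φ δ.T.G.c) (k : Kc φ l δ.K C) {U : Fin 6 → Fin 6 → A} {x : Fin 6 → A}
    (hU : ∀ i, ∃ s, ∀ e, Wq δ.T.G (s - wp e) (-s - wq e) (U i e))
    (hx : ∀ b, δ.T.G.c (x (bar b)) = x b) : Cx φ l (fun i => vf (fr δ.T.G) (U i))
      (vf (fr δ.T.G) x) δ.T.G.c δ.Bs (Ws δ.T.G) δ.K.co δ.K.L C where
  cj := hc
  re f := by rw [c_vf, funext hx]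
  ws i f h := let ⟨_, e⟩ := hU i; h.vf δ.T.is e
  b0 := ⟨D_zero _, D_zero _⟩
  ba f g h h' := ⟨by rw [D_add, h.1, h'.1, add_zero], by rw [D_add, h.2, h'.2, add_zero]⟩
  bs f h := let ⟨_, e⟩ := h; δ.bs_iff.2 ((e.mul (e.cj δ.T.is)).to (by ring) (by ring))
  wz d := ⟨0, δ.w_co d⟩
  bd := k.bd
  cl := k.L
  dd f h i := δ.vf_bs ⟨k.H f h, k.B f h⟩ _

end Dt

theorem Kc.fil {K : Hp A} (h : Kc φ l K C) (e : l0 ≤ l) : Kc φ l0 K C :=
  { h with bd := fun f hf => IsBigO.mono (h.bd f hf) e }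

theorem Lt.le {ι : Type} [Fintype ι] {E : ι → Der A} {U V : ι → ι → A} (h : Lt φ l E N U V)
    (e : l0 ≤ l) (e' : n ≤ N) : Lt φ l0 E n U V :=
  ⟨h.inv, fun i j => ((h.bU i j).fil e).le e', fun i j => ((h.bV i j).fil e).le e'⟩

/-- The bounds. -/
structure Bz (δ : Dt A) (φ : P → A →ₐ[ℂ] ℂ) (l : Filter P) (C : Set A) (L : ℕ) (η : P → ℝ) :
    Prop where
  fh : Fh φ l δ.T δ.zi L η
  kc : Kc φ l δ.K C
  Ξ : ∀ d, δ.Ξ d ∈ C
  ni : O φ l o1 δ.ni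
  fv : ∀ i d, J φ l (f4 δ.T.G) 1 (fun _ => o1) (fv δ.F i d)
  g : ∀ b d, J φ l (f4 δ.T.G) 1 (fun _ => o1) (δ.S.g b d)

variable {δ : Dt A} {U V : Fin 6 → Fin 6 → A}

theorem lt_cmD (h : Lt φ l (fr δ.T.G) (N + 1) U V)
    (hg : ∀ a b e, J φ l (fr δ.T.G) N (fun _ => o1) (gam δ.T.G a b e)) (i : Fin 6) :
    ∃ γ, Cm (fun i => vf (fr δ.T.G) (U i)) (vf (fr δ.T.G) (U i)) γ ∧
      ∀ j k, J φ l (fun i => vf (fr δ.T.G) (U i)) N (fun _ => o1) (γ j k) :=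
  (h.le le_rfl N.le_succ).cm (cm_vf δ.T _) (fun b e => (J.sum _ fun a _ =>
    ((h.bU i a).le N.le_succ).bmul (hg a b e)).sub ((h.bU i e).d b)) fun j e => by
      rw [vf_ap]; exact .sum _ fun a _ => ((h.bU i a).le N.le_succ).bmul ((h.bU j e).d a)

theorem lt_ini (h : Lt φ l (fr δ.T.G) N U V)
    (e : ∀ i d, J φ l (f4 δ.T.G) N (fun _ => o1) (fv δ.F i d)) (i : Fin 6) (d : Fin 4) :
    J φ l (fun i => vf (fr δ.T.G) (U i)) N (fun _ => o1) (vf (fr δ.T.G) (U i) (δ.K.co d)) := by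
  refine h.fw ?_ N.le_succ
  have k := fun j => J.six δ.T.is (δ.w_fv j d) (e j d)
  rw [δ.vf_co]
  exact ((((h.bU i 0).bmul (k 0)).add ((h.bU i 1).bmul (k 1))).add ((h.bU i 2).bmul (k 2))).add
    ((h.bU i 3).bmul (k 3))

theorem lt_out (h : Lt φ l (fr δ.T.G) N U V) (e : ∀ i d, J φ l (fun i => vf (fr δ.T.G) (U i)) N
    (fun _ => o1) (vf (fr δ.T.G) (U i) (δ.K.co d))) (i d : Fin 4) :
    J φ l (f4 δ.T.G) N (fun _ => o1) (fv δ.F i d) := by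
  rw [← δ.fr_co, h.inv]
  exact J.four (.sum _ fun j _ => (h.bV _ j).bmul (h.bw (e j d) N.le_succ))

/-- The letters of the tube. -/
def Ut (li ni : A) : Fin 6 → Fin 6 → A :=
  ![![Geo.hf A * li, -(Geo.hf A * ni), 0, 0, 0, 0], ![Geo.hf A * li, Geo.hf A * ni, 0, 0, 0, 0],
    ![0, 0, 1, 0, 0, 0], ![0, 0, 0, 1, 0, 0], ![0, 0, 0, 0, 1, 0], ![0, 0, 0, 0, 0, 1]]
def Vt (lr nr : A) : Fin 6 → Fin 6 → A :=
  ![![lr, lr, 0, 0, 0, 0], ![-nr, nr, 0, 0, 0, 0],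
    ![0, 0, 1, 0, 0, 0], ![0, 0, 0, 1, 0, 0], ![0, 0, 0, 0, 1, 0], ![0, 0, 0, 0, 0, 1]]

theorem J.one {ι : Type} {D : ι → Der A} : J φ l D n (fun _ => o1) 1 := by
  simpa using J.alg (D := D) (φ := φ) (l := l) (m := n) 1

/-- **The tube.** -/
theorem Bz.tube (h : Bz δ φ l C L η) {n0 : ℕ} (hL : n0 + N + 4 ≤ L)
    (k1 : ∀ b e, M (gz δ.T δ.zi) n0 n0 1 0 (kap δ.T.G (xi δ.T.G δ.ze δ.zi) b e))
    (k2 : M (gz δ.T δ.zi) n0 n0 1 0 (∑ a, xi δ.T.G δ.ze δ.zi a * fr δ.T.G a (δ.T.G.c δ.ze)))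
    {li x : A} {Rh : Vec A} (el : δ.T.G.th δ.rt * li = 1) (bl : O φ l o1 li) (xC : x ∈ C)
    (cx : δ.T.G.c x = x) (RC : ∀ d, Rh d ∈ C)
    (X1 : δ.Ξ = cb δ.F (zr δ.T.G (δ.k / 8) δ.ze δ.zi) + (Geo.hf A * x) • li • δ.F.l +
      -(Geo.hf A * x) • -δ.ni • δ.F.n) (X2 : δ.Ξ = Hp.e0 A + x • Rh)
    (e0 : ∀ p, 0 ≤ ε p) (e1 : ε =o[l] (o1 : P → ℝ)) (s0 : O φ l ε (δ.T.G.th (δ.rt - x)))
    (s1 : O φ l ε (δ.T.G.tp (δ.rt - x))) (s2 : O φ l ε (δ.T.G.et x)) (s3 : O φ l ε (δ.T.G.ep x))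
    (bx : O φ l b x) (bη : η =O[l] b) (b1 : b =O[l] (o1 : P → ℝ))
    (hΛ : ∀ X : A → A, (∀ f, δ.Bs f → X f = ∑ d, δ.Ξ d * δ.K.L d f) →
      ∃ Λ : Ln φ l l0 X δ.Bs, Λ.Int b) (hl : l0 ≤ l)
    (ini : ∀ i d, J φ l0 (f4 δ.T.G) N (fun _ => o1) (P354HI.fv δ.F i d)) (i d : Fin 4) :
    J φ l (f4 δ.T.G) N (fun _ => o1) (P354HI.fv δ.F i d) := by
  have en : δ.T.G.tp δ.rt * δ.ni = 1 := δ.en
  have t := Geo.two_hf (A := A)
  have r1 := fun b => (h.fh.jet (m := N + 1) (δ.m_fr δ.m_rt b) (by omega)).1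
  have jl : J φ l (fr δ.T.G) (N + 1) (fun _ => o1) li := J.inv el (r1 0) bl
  have jn : J φ l (fr δ.T.G) (N + 1) (fun _ => o1) δ.ni := J.inv en (r1 1) h.ni
  have lt : Lt φ l (fr δ.T.G) (N + 1) (Ut li δ.ni) (Vt (δ.T.G.th δ.rt) (δ.T.G.tp δ.rt)) := by
    refine ⟨fun e f => ?_, fun i e => ?_, fun i e => ?_⟩
    · fin_cases e <;> simp only [vf_ap, Ut, Vt, fr, Fin.sum_univ_six, Fin.reduceFinMk,
        Matrix.cons_val]
      · linear_combination -δ.T.G.th f * (δ.T.G.th δ.rt * li * t + el)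
      · linear_combination -δ.T.G.tp f * (δ.T.G.tp δ.rt * δ.ni * t + en)
      all_goals ring
    · fin_cases i <;> fin_cases e <;> first
        | exact .zero | exact .one | exact (J.alg _).bmul jl | exact (J.alg _).bmul jn
        | exact ((J.alg _).bmul jn).neg
    · fin_cases i <;> fin_cases e <;> first
        | exact .zero | exact .one | exact r1 0 | exact r1 1 | exact (r1 1).neg
  obtain ⟨κ0, c0, b0⟩ := cm_re h.fh.cj (δ.k / 8) fun b e =>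
    (h.fh.jet (m := N) (k1 b e) (by omega)).2 le_rfl
  change Cm _ (vf _ (zr δ.T.G (δ.k / 8) δ.ze δ.zi)) _ at c0
  generalize hz : zr δ.T.G (δ.k / 8) δ.ze δ.zi = z at c0 X1
  have cz : ∀ b, δ.T.G.c (z (bar b)) = z b := fun b => by
    simp only [← hz, zr, map_mul, map_add, δ.T.is.calg, δ.T.is.cc, bar_bar, Complex.conj_ofReal,
      add_comm]
  have Zz : J φ l (fr δ.T.G) (N + 1) (fun _ => η) (vf (fr δ.T.G) z δ.ze) := by
    have e := congrArg δ.T.G.c (vf_ap (E := fr δ.T.G) (xi δ.T.G δ.ze δ.zi) (δ.T.G.c δ.ze))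
    rw [c_vf, δ.T.is.cc] at e
    have w := δ.w_ze
    rw [show vf (fr δ.T.G) z δ.ze = algebraMap ℂ A (δ.k / 8 : ℝ) * δ.T.G.c
      (∑ a, xi δ.T.G δ.ze δ.zi a * fr δ.T.G a (δ.T.G.c δ.ze)) by
        rw [← e, ← hz]
        simp only [vf_ap, zr, Fin.sum_univ_six, fr, Matrix.cons_val, w.1, w.2]
        simp only [xi, Matrix.cons_val, Int.cast_zero]
        ring]
    exact (J.alg _).bmul (((h.fh.jet k2 (by omega)).2 le_rfl).cj h.fh.cj)
  have Zr : J φ l (fr δ.T.G) (N + 1) (fun _ => η) (vf (fr δ.T.G) z δ.rt) := by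
    rw [δ.er, D_mul, D_mul, D_add, Geo.hf, D_alg, D_alg, mul_zero, mul_zero, add_zero, add_zero]
    refine (J.alg _).bmul ((J.alg _).bmul (Zz.add ?_))
    have := Zz.cj h.fh.cj
    rwa [c_vf, funext cz] at this
  have Zi : ∀ b v, fr δ.T.G b δ.rt * v = 1 → J φ l (fr δ.T.G) (N + 1) (fun _ => o1) v →
      J φ l (fr δ.T.G) N (fun _ => η) (vf (fr δ.T.G) z (Geo.hf A * v)) := fun b v e hv => by
    rw [D_mul, Geo.hf, D_alg, mul_zero, add_zero, D_inv _ e, c0]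
    exact (J.alg _).bmul (((hv.bmul hv).le N.le_succ).bmul ((Zr.d b).add (.sum _ fun j _ => by
      rw [mul_comm]; exact ((r1 j).le N.le_succ).bmul (b0 b j)))).neg
  obtain ⟨κ, cκ, bκ⟩ := (lt.le le_rfl N.le_succ).cm c0 b0 fun i e => by
    fin_cases i <;> fin_cases e <;> simp only [Ut, Fin.reduceFinMk, Matrix.cons_val, D_zero, D_one,
      D_neg] <;> first
        | exact .zero | exact Zi 0 _ el jl | exact Zi 1 _ en jn | exact (Zi 1 _ en jn).neg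
  obtain ⟨γ, cγ, bγ⟩ := lt_cmD lt
    (fun a b e => (h.fh.jet (of_gen (δ.T.mga a b e)) (by omega)).1) 1
  have wl := (δ.w_rt.fr δ.T.is 0).inv el
  have wn := (δ.w_rt.fr δ.T.is 1).inv en
  have cl := δ.c_un 0 rfl el
  have cn := δ.c_un 1 rfl en
  have ch : δ.T.G.c (Geo.hf A) = Geo.hf A := Fr.c_hf δ.sis
  have hc := δ.cx h.fh.cj h.kc (U := Ut li δ.ni) (x := fun b => z b + x * Ut li δ.ni 1 b)
    (fun i => ⟨![0, 0, 1, -1, 0, 0] i, fun e => by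
      fin_cases i <;> fin_cases e <;> first
        | exact .zero | exact .one | exact (Wq.alg _).mul wl | exact (Wq.alg _).mul wn
        | exact ((Wq.alg _).mul wn).neg⟩) fun b => by
      rw [map_add, map_mul, cz, cx]
      fin_cases b <;> simp only [Ut, bar, Fin.reduceFinMk, Matrix.cons_val, map_mul, map_zero, ch,
        cl, cn]
  have hX : ∀ d, vf (fr δ.T.G) (fun b => z b + x * Ut li δ.ni 1 b) (δ.K.co d) = δ.Ξ d := fun d => by
    rw [δ.vf_co, X1]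
    simp only [cb, Ut, Matrix.cons_val, Pi.add_apply, Pi.smul_apply, smul_eq_mul]
    ring
  have hB : ∀ f, δ.Bs f → vf (fr δ.T.G) (fun b => z b + x * Ut li δ.ni 1 b) f =
      ∑ d, δ.Ξ d * δ.K.L d f := fun f hf => by simp only [δ.vf_bs hf, hX]
  obtain ⟨Λ, hb⟩ := hΛ _ hB
  have bs : ∀ f ∈ C, δ.Bs f := fun f hf => ⟨h.kc.H f hf, h.kc.B f hf⟩
  have wx := δ.bs_iff.1 (bs x xC)
  obtain ⟨-, -, -, -, -, H⟩ := hc.tube (N := N) (ε := ε) (η := η)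
    { Z := vf _ z, R := 1, x := x, Rh := Rh, k := ![0, 1, 0, 0, 0, 0], κ := κ, γ := γ, hκ := cκ
      hγ := cγ, bκ := bκ, bγ := bγ, xC := xC, RC := RC, kR := rfl, bx := bx, bη := bη, b1 := b1
      e0 := e0, e1 := e1
      hX := fun f => by simp only [vf_ap, add_mul, Finset.sum_add_distrib, Finset.mul_sum, mul_assoc]
      wR := fun d => ⟨0, by
        rw [vf_ap, Fin.sum_univ_six, sub_eq_add_neg]
        simp only [Ut, Matrix.cons_val, zero_mul, add_zero]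
        exact (δ.bs_iff.1 (bs _ (RC d))).add ((((Wq.alg _).mul wl).mul ((δ.w_co d).fr δ.T.is 0)).add
          (((Wq.alg _).mul wn).mul ((δ.w_co d).fr δ.T.is 1))).neg⟩
      hz := fun i d => by
        rw [hX, X2, Pi.add_apply, Pi.smul_apply, smul_eq_mul, add_sub_cancel_right, Hp.D_e0]
      hR := fun d => by
        rw [hB _ (bs _ (RC d)), X2]
        simp only [Fin.sum_univ_four, Pi.add_apply, Pi.smul_apply, smul_eq_mul, Hp.e0,
          Matrix.cons_val, h.kc.T _ (RC d)]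
        ring
      k0 := fun i e => by fin_cases i <;> first | rfl | exact absurd rfl e
      bk := fun i => by
        have a0 := (O.bmul (f := Geo.hf A) (O.alg _) bl).bmul s0
        have a1 := (O.bmul (f := Geo.hf A) (O.alg _) h.ni).bmul s1
        fin_cases i <;> simp only [vf_ap, Ut, fr, Fin.sum_univ_six, Fin.reduceFinMk,
          Matrix.cons_val, zero_mul, one_mul, add_zero, zero_add, sub_zero, wx.1, wx.2,
          Int.cast_zero]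
        · exact (congrArg _ (by
            simp only [D_sub]; linear_combination Geo.hf A * (en - el))).mp (a1.sub a0)
        · exact (congrArg _ (by
            simp only [D_sub]; linear_combination -Geo.hf A * (en + el) - t)).mp (a1.add a0).neg
        exacts [s2, s3, .zero, .zero]
      z1 := fun i d => (lt_ini (lt.le le_rfl (by omega)) h.fv i d).val }
    Λ hb (lt_ini (lt.le hl N.le_succ) ini) N le_rfl
  exact lt_out (lt.le le_rfl N.le_succ) H i d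

end Vale.Agent.P354HI
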