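import Vale.Agent.P354HI.Jc

/-!
Segments of lines through the points, and the estimate for a pair of a driven and a damped
quantity.
-/

open Filter Asymptotics Set

namespace Vale.Agent.P354HI

theorem anti {T : ℝ} {f f' : ℝ → ℝ}
    (h : ∀ s ∈ Icc 0 T, HasDerivWithinAt f (f' s) (Icc 0 T) s ∧ f' s ≤ 0) :
    AntitoneOn f (Icc 0 T) :=
  antitoneOn_of_hasDerivWithinAt_nonpos (convex_Icc 0 T)
    (fun s hs => (h s hs).1.continuousWithinAt)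
    (fun s hs => (h s (interior_subset hs)).1.mono interior_subset)
    fun s hs => (h s (interior_subset hs)).2

/-- The hypotheses at one parameter. -/
structure Pt (C κ W u u' v v' β' w b : ℝ) : Prop where
  u0 : 0 ≤ u
  v0 : 0 ≤ v
  vu : v ≤ C * (1 + u)
  w0 : 0 ≤ w
  w1 : w ≤ W
  b0 : 0 ≤ b
  be : w * b ≤ β'
  du : u' ≤ w * (2 * C * √(1 + u) * (b * √(1 + u) + √v))
  dv : v' ≤ w * (2 * (C * √v * (b * √(1 + u)) - κ * v))

theorem Pt.key {C κ W u u' v v' β' w b δ : ℝ} (h : Pt C κ W u u' v v' β' w b) (hC : 0 ≤ C)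
    (hκ : 0 < κ) (hδ : 0 < δ) : u' / (2 * √(1 + u)) ≤ C * (w * b * √(1 + u) + w * √(δ ^ 2 + v)) ∧
      v' / (2 * √(δ ^ 2 + v)) ≤ C * (w * b * √(1 + u)) + κ * (w * δ - w * √(δ ^ 2 + v)) ∧
      √v ≤ √(δ ^ 2 + v) := by
  have p1 : 0 < √(1 + u) := Real.sqrt_pos.2 (by linarith [h.u0])
  have p2 : δ ≤ √(δ ^ 2 + v) := Real.le_sqrt_of_sq_le (by linarith [h.v0])
  have p3 : √v ≤ √(δ ^ 2 + v) := Real.sqrt_le_sqrt (by nlinarith)
  have p4 : √(δ ^ 2 + v) ^ 2 = δ ^ 2 + v := Real.sq_sqrt (by nlinarith [h.v0])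
  have w0 := h.w0
  have b0 := h.b0
  generalize √(δ ^ 2 + v) = V at p2 p3 p4
  have p5 : 0 < V := hδ.trans_le p2
  refine ⟨(div_le_iff₀ (by positivity)).2 (h.du.trans ?_),
    (div_le_iff₀ (by positivity)).2 (h.dv.trans ?_), p3⟩
  · nlinarith [mul_le_mul_of_nonneg_left p3 (show 0 ≤ w * C * √(1 + u) by positivity)]
  · linarith [mul_le_mul_of_nonneg_left p3 (show 0 ≤ w * C * (b * √(1 + u)) by positivity),
      mul_le_mul_of_nonneg_left p2 (show 0 ≤ w * κ * δ by positivity),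
      (congrArg (w * κ * ·) p4 :)]

theorem Pt.dF {C κ W u u' v v' β' w b δ a : ℝ} (q : Pt C κ W u u' v v' β' w b) (hC : 0 ≤ C)
    (hκ : 0 < κ) (d0 : 0 < δ) (a0 : 0 ≤ a) (ha : a * κ = C) :
    u' / (2 * √(1 + u)) + a * (v' / (2 * √(δ ^ 2 + v))) ≤
      (C * (1 + a) + C * W) * (β' + δ) * (√(1 + u) + a * √(δ ^ 2 + v)) := by
  obtain ⟨q1, q2, -⟩ := q.key hC hκ d0
  have q3 : 1 ≤ √(1 + u) := Real.one_le_sqrt.2 (by linarith [q.u0])
  have q4 : 0 ≤ a * √(δ ^ 2 + v) := by positivity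
  have b0 := (mul_nonneg q.w0 q.b0).trans q.be
  have hW := q.w0.trans q.w1
  have q5 : w * b * √(1 + u) ≤ β' * (√(1 + u) + a * √(δ ^ 2 + v)) :=
    mul_le_mul q.be (by linarith) (by positivity) b0
  have q6 : w * δ ≤ W * δ * (√(1 + u) + a * √(δ ^ 2 + v)) :=
    (mul_le_mul_of_nonneg_right q.w1 d0.le).trans
      (le_mul_of_one_le_right (by positivity) (by linarith))
  have q7 := mul_le_mul_of_nonneg_left q2 a0
  have r3 : 0 ≤ (C * (1 + a) * δ + C * W * β') * (√(1 + u) + a * √(δ ^ 2 + v)) := by positivity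
  rw [mul_add a, ← mul_assoc a κ, ha] at q7
  linarith [mul_le_mul_of_nonneg_left q5 (show 0 ≤ C * (1 + a) by positivity),
    mul_le_mul_of_nonneg_left q6 hC]

theorem Pt.dB {C κ W u u' v v' β' w b δ K : ℝ} (q : Pt C κ W u u' v v' β' w b) (hC : 0 ≤ C)
    (hκ : 0 < κ) (d0 : 0 < δ) (hK : √(1 + u) ≤ K) :
    w * (b + √v) ≤ (κ + C * K) / κ * β' - v' / (2 * √(δ ^ 2 + v)) / κ + W * δ * 1 := by
  obtain ⟨-, q2, q3⟩ := q.key hC hκ d0
  have q4 : w * b * √(1 + u) ≤ β' * K :=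
    mul_le_mul q.be hK (by positivity) ((mul_nonneg q.w0 q.b0).trans q.be)
  generalize v' / (2 * √(δ ^ 2 + v)) = x at q2
  rw [← mul_le_mul_iff_right₀ hκ]
  have e : κ * ((κ + C * K) / κ * β' - x / κ + W * δ * 1) = (κ + C * K) * β' - x + κ * (W * δ) := by
    field_simp
  linarith [mul_le_mul_of_nonneg_left q4 hC, mul_le_mul_of_nonneg_left q.be hκ.le,
    mul_le_mul_of_nonneg_left q3 (mul_nonneg hκ.le q.w0),
    mul_le_mul_of_nonneg_left q.w1 (mul_nonneg hκ.le d0.le)]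

theorem ly_real {C κ W : ℝ} (hC : 0 ≤ C) (hκ : 0 < κ) (hW : 0 ≤ W) (B B0 : ℝ) : ∃ K, ∀ (T : ℝ)
    (u u' v v' β β' w b : ℝ → ℝ), 0 ≤ T → (∀ s ∈ Icc 0 T, HasDerivWithinAt u (u' s) (Icc 0 T) s ∧
      HasDerivWithinAt v (v' s) (Icc 0 T) s ∧ HasDerivWithinAt β (β' s) (Icc 0 T) s ∧
      Pt C κ W (u s) (u' s) (v s) (v' s) (β' s) (w s) (b s)) → β T - β 0 ≤ B → u 0 ≤ B0 →
    u T ≤ K ∧ ∃ β2 β2' : ℝ → ℝ, (∀ s ∈ Icc 0 T, HasDerivWithinAt β2 (β2' s) (Icc 0 T) s ∧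
      w s * (b s + √(v s)) ≤ β2' s) ∧ β2 T - β2 0 ≤ K := by
  obtain ⟨a, a0, ha⟩ : ∃ a, 0 ≤ a ∧ a * κ = C := ⟨C / κ, by positivity, by field_simp⟩
  obtain ⟨V0, hV⟩ : ∃ V0, V0 = √(1 + C * (1 + B0)) := ⟨_, rfl⟩
  obtain ⟨K1, hK1⟩ : ∃ K1, K1 = C * (1 + a) + C * W := ⟨_, rfl⟩
  obtain ⟨K2, hK2⟩ : ∃ K2, K2 = (√(1 + B0) + a * V0) * Real.exp (K1 * (B + 1)) := ⟨_, rfl⟩
  have k0 : 0 ≤ V0 := by rw [hV]; positivity
  have k1 : 0 ≤ K1 := by rw [hK1]; positivity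
  have k2 : 0 ≤ K2 := by rw [hK2]; positivity
  refine ⟨max (K2 ^ 2) ((κ + C * K2) / κ * B + V0 / κ + W),
    fun T u u' v v' β β' w b hT h hB h0 => ?_⟩
  obtain ⟨δ, d0, d1, d2⟩ : ∃ δ : ℝ, 0 < δ ∧ δ ≤ 1 ∧ δ * T ≤ 1 :=
    ⟨1 / (T + 1), by positivity, (div_le_one (by positivity)).2 (by linarith), by
      rw [div_mul_eq_mul_div, div_le_one (by positivity)]; linarith⟩
  have m0 : (0 : ℝ) ∈ Icc 0 T := ⟨le_rfl, hT⟩
  have mT : T ∈ Icc 0 T := ⟨hT, le_rfl⟩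
  have dU : ∀ s ∈ Icc 0 T, HasDerivWithinAt (fun s => √(1 + u s)) (u' s / (2 * √(1 + u s)))
      (Icc 0 T) s := fun s hs =>
    ((h s hs).1.const_add 1).sqrt (by linarith [(h s hs).2.2.2.u0])
  have dV : ∀ s ∈ Icc 0 T, HasDerivWithinAt (fun s => √(δ ^ 2 + v s))
      (v' s / (2 * √(δ ^ 2 + v s))) (Icc 0 T) s := fun s hs =>
    ((h s hs).2.1.const_add _).sqrt (by nlinarith [(h s hs).2.2.2.v0])
  have U1 : ∀ s ∈ Icc 0 T, 1 ≤ √(1 + u s) := fun s hs =>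
    Real.one_le_sqrt.2 (by linarith [(h s hs).2.2.2.u0])
  have b0 : ∀ s ∈ Icc 0 T, 0 ≤ β' s := fun s hs =>
    (mul_nonneg (h s hs).2.2.2.w0 (h s hs).2.2.2.b0).trans (h s hs).2.2.2.be
  have mb := anti (f := fun s => -β s) fun s hs => ⟨(h s hs).2.2.1.neg, neg_nonpos.2 (b0 s hs)⟩
  have V1 : √(δ ^ 2 + v 0) ≤ V0 := hV ▸ Real.sqrt_le_sqrt (by
    nlinarith [(h 0 m0).2.2.2.vu, mul_le_mul_of_nonneg_left h0 hC])
  have mG := anti (f := fun s => (√(1 + u s) + a * √(δ ^ 2 + v s)) *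
      Real.exp (-(K1 * (β s + δ * s)))) fun s hs => ⟨((dU s hs).add ((dV s hs).const_mul a)).mul
    ((((h s hs).2.2.1.add ((hasDerivWithinAt_id s _).const_mul δ)).const_mul K1).neg.exp), by
      have q8 := (h s hs).2.2.2.dF hC hκ d0 a0 ha
      rw [← hK1] at q8
      simp only [Pi.add_apply, Pi.neg_apply, id, mul_one]
      linarith [mul_le_mul_of_nonneg_right q8 (Real.exp_pos (-(K1 * (β s + δ * s)))).le]⟩
  have bU : ∀ s ∈ Icc 0 T, √(1 + u s) ≤ K2 := fun s hs => by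
    have e1 := mG m0 hs hs.1
    have e2 := mb hs mT hs.2
    have e3 : δ * s ≤ 1 := (mul_le_mul_of_nonneg_left hs.2 d0.le).trans d2
    simp only [mul_zero, add_zero] at e1 e2
    rw [Real.exp_neg, ← div_eq_mul_inv, div_le_iff₀ (Real.exp_pos _), mul_assoc,
      ← Real.exp_add] at e1
    rw [hK2]
    refine (le_add_of_nonneg_right (by positivity)).trans (e1.trans (mul_le_mul (add_le_add
      (Real.sqrt_le_sqrt (by linarith)) (mul_le_mul_of_nonneg_left V1 a0))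
      (Real.exp_le_exp.2 ?_) (by positivity) (by positivity)))
    nlinarith [mul_le_mul_of_nonneg_left (show β s + δ * s - β 0 ≤ B + 1 by linarith) k1]
  refine ⟨le_max_of_le_left ?_, fun s => (κ + C * K2) / κ * β s - √(δ ^ 2 + v s) / κ + W * δ * s,
    _, fun s hs => ⟨(((h s hs).2.2.1.const_mul _).sub ((dV s hs).div_const κ)).add
      ((hasDerivWithinAt_id s _).const_mul _), ?_⟩, le_max_of_le_right ?_⟩
  · have := Real.sq_sqrt (show 0 ≤ 1 + u T by linarith [(h T mT).2.2.2.u0])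
    nlinarith [bU T mT, U1 T mT]
  · exact (h s hs).2.2.2.dB hC hκ d0 (bU s hs)
  · have e1 := mul_le_mul_of_nonneg_left hB (show 0 ≤ (κ + C * K2) / κ by positivity)
    have e2 := div_le_div_of_nonneg_right V1 hκ.le
    have e3 : 0 ≤ √(δ ^ 2 + v T) / κ := by positivity
    nlinarith [mul_le_mul_of_nonneg_left d2 hW]

variable {A P : Type*} [CommRing A] [Algebra ℂ A]

/-- Every point p is the end of a segment γ p which starts in l0; along it the functions of the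
class Bs are differentiated by ω X. -/
structure Ln (φ : P → A →ₐ[ℂ] ℂ) (l l0 : Filter P) (X : A → A) (Bs : A → Prop) where
  γ : P → ℝ → P
  T : P → ℝ
  ω : P → ℝ
  fin : ∀ᶠ p in l, 0 ≤ T p ∧ γ p (T p) = p
  inn : ∀ S ∈ l, ∀ᶠ p in l, ∀ s ∈ Icc 0 (T p), γ p s ∈ S
  ini : Tendsto (fun p => γ p 0) l l0
  om : ∃ W, ∀ᶠ p in l, 0 ≤ ω p ∧ ω p ≤ W
  der : ∀ f, Bs f → ∀ᶠ p in l, ∀ s ∈ Icc 0 (T p), HasDerivWithinAt (fun s => φ (γ p s) f)
    (ω (γ p s) * φ (γ p s) (X f)) (Icc 0 (T p)) s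

variable {φ : P → A →ₐ[ℂ] ℂ} {l l0 : Filter P} {X : A → A} {Bs : A → Prop}

/-- The function b is not negative, and its integrals along the segments are bounded. -/
def Ln.Int (L : Ln φ l l0 X Bs) (b : P → ℝ) : Prop :=
  (∀ᶠ p in l, 0 ≤ b p) ∧ ∃ B, ∀ᶠ p in l, ∃ β β' : ℝ → ℝ, (∀ s ∈ Icc 0 (L.T p),
    HasDerivWithinAt β (β' s) (Icc 0 (L.T p)) s ∧ L.ω (L.γ p s) * b (L.γ p s) ≤ β' s) ∧
      β (L.T p) - β 0 ≤ B

/-- The estimate along the segments. -/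
theorem Ln.ly (L : Ln φ l l0 X Bs) {U Y : A} (hU : Bs U) (hY : Bs Y) {b : P → ℝ} (hb : L.Int b)
    {C κ : ℝ} (hC : 0 ≤ C) (hκ : 0 < κ) (h : ∀ᶠ p in l, 0 ≤ (φ p U).re ∧ 0 ≤ (φ p Y).re ∧
      (φ p Y).re ≤ C * (1 + (φ p U).re) ∧ (φ p (X U)).re ≤ 2 * C * √(1 + (φ p U).re) *
        (b p * √(1 + (φ p U).re) + √(φ p Y).re) ∧
      (φ p (X Y)).re ≤ 2 * (C * √(φ p Y).re * (b p * √(1 + (φ p U).re)) - κ * (φ p Y).re))
    (h0 : O φ l0 o1 U) : (∃ K, ∀ᶠ p in l, (φ p U).re ≤ K) ∧ L.Int fun p => b p + √(φ p Y).re := by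
  obtain ⟨b0, B, hb⟩ := hb
  obtain ⟨W, hW⟩ := L.om
  obtain ⟨B0, h0⟩ := h0.bound
  obtain ⟨K, hK⟩ := ly_real hC hκ (abs_nonneg W) B B0
  have key : ∀ᶠ p in l, (φ p U).re ≤ K ∧ ∃ β β' : ℝ → ℝ, (∀ s ∈ Icc 0 (L.T p),
      HasDerivWithinAt β (β' s) (Icc 0 (L.T p)) s ∧
        L.ω (L.γ p s) * (b (L.γ p s) + √(φ (L.γ p s) Y).re) ≤ β' s) ∧ β (L.T p) - β 0 ≤ K := by
    filter_upwards [hb, L.fin, L.inn _ (h.and (hW.and b0)), L.ini.eventually h0, L.der U hU,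
      L.der Y hY] with p ⟨β, β', h1, h2⟩ h3 h4 h5 h6 h7
    have := hK (L.T p) (fun s => (φ (L.γ p s) U).re) (fun s => L.ω (L.γ p s) *
      (φ (L.γ p s) (X U)).re) (fun s => (φ (L.γ p s) Y).re) (fun s => L.ω (L.γ p s) *
      (φ (L.γ p s) (X Y)).re) β β' (fun s => L.ω (L.γ p s)) (fun s => b (L.γ p s)) h3.1
      (fun s hs => by
        obtain ⟨⟨a1, a2, a3, a4, a5⟩, ⟨a6, a7⟩, a8⟩ := h4 s hs
        exact ⟨(Complex.reCLM.hasFDerivAt.comp_hasDerivWithinAt s (h6 s hs)).congr_deriv (by simp),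
          (Complex.reCLM.hasFDerivAt.comp_hasDerivWithinAt s (h7 s hs)).congr_deriv (by simp),
          (h1 s hs).1,
          a1, a2, a3, a6, a7.trans (le_abs_self W), a8, (h1 s hs).2,
          mul_le_mul_of_nonneg_left a4 a6, mul_le_mul_of_nonneg_left a5 a6⟩) h2
      ((Complex.re_le_norm _).trans (by simpa using h5))
    rwa [h3.2] at this
  exact ⟨⟨K, key.mono fun _ h => h.1⟩, b0.mono fun _ h => by positivity, K,
    key.mono fun _ h => h.2⟩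

end Vale.Agent.P354HI
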