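import Vale.Agent.P354HI.Kd
import Vale.Agent.P354HI.Ly
import Vale.Agent.P354YA.Boot
import Vale.Agent.P354XV.First

/-!
HIGH: bounds of high order for the metric in the gauge of the scaffold. Definitions and exact
statements.
-/

open scoped ContDiff
open Set Filter Topology Complex

noncomputable section

namespace Vale.Agent.P354HI

open Vale.Agent.P354n (R4)
open Vale.Agent.P354RC (cv)
open Vale.Agent.P354XG Vale.Agent.P354XD Vale.Agent.P354XR
open Vale.Agent.P354XF (bar fr)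
open Vale.Agent.P354XE (Tw gin rd)
open Vale.Agent.P354XV (Fst)
open Vale.Agent.P354YA (KU GU sG fT gT qq Boot Zs Ok2 dd ca cl cn cp)
open Vale.Agent.P354YT (Pm)
open Vale.Agent.P354Z (f4 sc)

section alg
variable {A : Type} [CommRing A] [Algebra ℂ A]

/-- The vectors of a frame, and the vector with given components. -/
def fv (F : Fr A) : Fin 4 → Vec A := ![F.l, F.n, F.m, F.mb]
def cb (F : Fr A) (x : Fin 6 → A) : Vec A := x 0 • F.l + x 1 • F.n + x 2 • F.m + x 3 • F.mb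

/-- The components of the real almost Killing field; k is a real constant. -/
def zr (G : GHP A) (k : ℝ) (ze zi : A) (b : Fin 6) : A :=
  algebraMap ℂ A k * (xi G ze zi b + G.c (xi G ze zi (bar b)))

/-- The covariant derivative of V along U, and the endomorphism which maps U to its acceleration,
up to a factor. -/
def nb0 (S : Geo A) (U V : Vec A) : Vec A := S.nab ⟨U, 0, 0⟩ V
def aj (S : Geo A) (U V X : Vec A) : Vec A :=
  S.dot (nb0 S U U) X • V - S.dot V X • nb0 S U U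

end alg

/-! ### The natural fields as germs -/

/-- The real cube root of - 2 M, and the value of P2. -/
def c0 (M : ℝ) : ℝ := -(2 * M) ^ (1 / 3 : ℝ)
def vP (M a : ℝ) (p : Tw × E6) : ℂ := rep (gT (GU M a) M a id).P2 p

/-- The complex radius of Kerr, and the cube of the quotient of the two radii. -/
def yK (a : ℝ) (x : E6) : ℂ := x.2.1 - I * a * oc x 3
def qt (M a : ℝ) (p : Tw × E6) : ℂ := -2 * M / (vP M a p * yK a p.2 ^ 3)

section fam
variable {J : Type} (G : Filter (J × E6)) [Loc G] (M a : ℝ) (g : J → Tw)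

/-- The complex radius Y, ze = Y / c0, its inverse, the real radius and its derivatives along l
and n with their inverses. -/
def Yc : Sm G := gm G fun p => yK a p.2 * qt M a (g p.1, p.2) ^ (1 / 3 : ℂ)
def ze : Sm G := algebraMap ℂ _ ((c0 M)⁻¹ : ℝ) * Yc G M a g
def zi : Sm G := Ring.inverse (ze G M a g)
def rt : Sm G := Geo.hf _ * (Yc G M a g + cj (Yc G M a g))
def lr : Sm G := (gT G M a g).th (rt G M a g)
def nr : Sm G := (gT G M a g).tp (rt G M a g)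
def li : Sm G := Ring.inverse (lr G M a g)
def ni : Sm G := Ring.inverse (nr G M a g)

/-- The natural fields Z, l, n. -/
def Zv : Vec (Sm G) := cb (fT G M a g) (zr (gT G M a g) (c0 M / 8) (ze G M a g) (zi G M a g))
def lv : Vec (Sm G) := li G M a g • (fT G M a g).l
def nv : Vec (Sm G) := -ni G M a g • (fT G M a g).n

/-- Functions and vector fields of the base. -/
def kf (f : R4 → ℝ) : Sm G := pb G fun _ => f
def vk (X : R4 → R4) : Vec (Sm G) := fun d => kf G fun p => cv d (X p)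

/-- The data: the frame, the metric and the scalars. -/
def dt : (Fin 4 × Fin 4) ⊕ (Fin 4 × Fin 4) ⊕ Fin 13 → Sm G :=
  Sum.elim (fun i => fv (fT G M a g) i.1 i.2)
    (Sum.elim (fun i => (sG G g).g i.1 i.2) (sc (gT G M a g)))

end fam

/-! ### The good points -/

/-- The points at which Y is defined. -/
def K1 (M a : ℝ) (g : Tw) : Set E6 := {x | x ∈ KU M a g ∧ ‖qt M a (g, x) - 1‖ < 1 / 2}
abbrev G1 (M a : ℝ) : Filter (Tw × E6) := nb ⊤ (K1 M a)

/-- The signs and the size e of P0 P4 at a point. -/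
structure Sg (c : Pm) (e : ℝ) (p : Tw × E6) : Prop where
  k1 : p.2 ∈ K1 c.M c.a p.1
  tt : ‖rep ((gT (G1 c.M c.a) c.M c.a id).P0 * (gT (G1 c.M c.a) c.M c.a id).P4) p‖ <
    e * ‖vP c.M c.a p‖ ^ 2
  nr : (rep (nr (G1 c.M c.a) c.M c.a id) p).re < 0
  lr : |dd c (pj p.2)| < 2 → 0 < (rep (lr (G1 c.M c.a) c.M c.a id) p).re
  fut : |dd c (pj p.2)| < 2 → (rep ((sG (G1 c.M c.a) id).dot
    (P354HI.lr (G1 c.M c.a) c.M c.a id • (fT (G1 c.M c.a) c.M c.a id).n -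
      P354HI.nr (G1 c.M c.a) c.M c.a id • (fT (G1 c.M c.a) c.M c.a id).l)
    (vk (G1 c.M c.a) c.X)) p).re < 0
  ori : 0 < (Matrix.of fun i d => rep (fv (fT (G1 c.M c.a) c.M c.a id) i d) p).det.im

/-- A family of good points. -/
def Gd {J : Type} (G : Filter (J × E6)) (c : Pm) (κ e : ℝ) (g : J → Tw) (U : Set ℝ) : Prop :=
  ∀ᶠ p in G, Sg c e (g p.1, p.2) ∧ Fst c κ (g p.1) (pj p.2) ∧ dd c (pj p.2) ∈ U

/-- The good points of the zone U, the ring of germs, the points and the values. -/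
def Kz (c : Pm) (κ e : ℝ) (U : Set ℝ) (g : Tw) : Set E6 :=
  {x | ∀ᶠ y in 𝓝 x, Sg c e (g, y) ∧ Fst c κ g (pj y) ∧ dd c (pj y) ∈ U}

section pts
variable (K : Tw → Set E6)

abbrev Pz : Type := {p : Tw × E6 // p.2 ∈ K p.1}

theorem ev_pz {f h : Tw × E6 → ℂ} (e : f =ᶠ[nb ⊤ K] h) (p : Pz K) : f p.1 = h p.1 :=
  eventually_top.1 (ev_nb_on e) p.1.1 p.1.2 p.2

def ev (p : Pz K) : Sm (nb ⊤ K) →ₐ[ℂ] ℂ where
  toFun f := rep f p.1
  map_one' := ev_pz K rep_one p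
  map_mul' f h := ev_pz K (rep_mul f h) p
  map_zero' := ev_pz K rep_zero p
  map_add' f h := ev_pz K (rep_add f h) p
  commutes' z := ev_pz K (rep_alg z) p

/-- The functions on the base. -/
def Bs (f : Sm (nb ⊤ K)) : Prop := (hp _).H f = 0 ∧ (hp _).B f = 0

end pts

/-! ### The states -/

/-- The hypotheses with the size e below the level V. -/
structure Hy (c : Pm) (κ : ℝ) (k L m : ℕ) (s e V : ℝ) (g : Tw) : Prop where
  fst : ∀ p ∈ c.sc.Om V, Fst c κ g p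
  boot : Boot c.M c.a c.sc c.Rs (fun _ => 0) k L s e e V g
  col : ∀ x ∈ Zs c.sc c.Rs, c.tau (pj x) < V → c.psi (pj x) < 0 →
    P354XE.Bd m (g - gin c.M c.a) (pj x) e

/-- The points of the states of small size whose distance to the tube is in W. -/
def l0 (c : Pm) (κ : ℝ) (k L m : ℕ) (s : ℝ) (W : Set ℝ) : Filter (Tw × E6) :=
  ⨅ e ∈ Ioi (0 : ℝ), 𝓟 {p | ∃ V, Hy c κ k L m s e V p.1 ∧ p.2 ∈ Zs c.sc c.Rs ∧ c.tau (pj p.2) < V ∧
    dd c (pj p.2) ∈ W}

/-- The tube and its complement. -/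
def WT : Set ℝ := {d | |d| ≤ 1 / 8}
def WO : Set ℝ := {d | 1 / 8 ≤ |d|}

/-! ### The statements -/

/-- HIGH. -/
def HIGH : Prop := ∀ M a : ℝ, |a| < M → ∃ k, ∀ N, ∃ L, ∀ c : Pm, c.M = M → c.a = a → Ok2 c →
  c.k = 1 → ∀ κ, ∀ s > 1, ∃ m, ∃ e > 0, ∃ C, ∀ V g, Hy c κ k L m s e V g →
    ∀ x ∈ Zs c.sc c.Rs, c.tau (pj x) < V → P354XE.Bd N g (pj x) C

/-- LOWU: bounds for metrics which are close to Kerr; the order m does not depend on the shell. -/
def LOWU : Prop := ∀ M a : ℝ, |a| < M → ∀ n, ∃ m, ∀ c : Pm, c.M = M → c.a = a → Ok2 c → c.k = 1 →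
  ∃ C, ∀ e > 0, ∃ δ > 0, ∀ p : Tw × E6, nq p.2 = 1 → c.r1 ≤ p.2.2.1 → p.2.2.1 ≤ c.Rs →
    VacAt p.1 (pj p.2) → P354XE.Bd m (p.1 - gin M a) (pj p.2) δ → Sg c e p ∧
      (∀ i, qq (f4 (gT (G1 M a) M a id)) p n (dt (G1 M a) M a id i) ≤ C) ∧
      ‖(vP M a p)⁻¹‖ ≤ C ∧ ‖(rep (nr (G1 M a) M a id) p)⁻¹‖ ≤ C ∧
      (|dd c (pj p.2)| < 2 → ‖(rep (lr (G1 M a) M a id) p)⁻¹‖ ≤ C) ∧
      ∀ i, ‖rep (f4 (gT (G1 M a) M a id) i (rt (G1 M a) M a id - (hp _).z 1)) p‖ ≤ e ∧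
        (2 ≤ i → ‖rep (f4 (gT (G1 M a) M a id) i ((hp _).z 1)) p‖ ≤ e)

/-- LINK: the gauge in terms of the transverse frame. -/
def LINK : Prop := ∃ e > 0, ∀ c : Pm, Ok2 c → ∀ (κ : ℝ) (J : Type) (G : Filter (J × E6)) [Loc G]
  (g : J → Tw) (U : Set ℝ), Gd G c κ e g U →
    (U ⊆ {d | |d| < 5 / 4} → vk G c.X = kf G (ca c) • Zv G c.M c.a g +
      kf G (cl c) • lv G c.M c.a g + kf G (cn c) • nv G c.M c.a g) ∧
    (U ⊆ {d | 1 < |d| ∧ |d| < 2} → nb0 (sG G g) (vk G c.X) (vk G c.X) =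
      -(lr G c.M c.a g * nr G c.M c.a g) •
        (kf G (fun p => cp (dd c p)) • aj (sG G g) (lv G c.M c.a g) (nv G c.M c.a g) (vk G c.X) +
        kf G (fun p => cp (-dd c p)) • aj (sG G g) (nv G c.M c.a g) (lv G c.M c.a g) (vk G c.X))) ∧
    (U ⊆ {d | 7 / 4 < |d|} → nb0 (sG G g) (vk G c.X) (vk G c.X) = 0)

/-- LINES: the lines of X in the tube and outside of the tube. -/
def LINES : Prop := ∀ c : Pm, Ok2 c → c.k = 1 → ∀ κ k L m, ∀ s > 1, ∀ K : Tw → Set E6,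
  Pos (nb ⊤ K) → ∀ X : Sm (nb ⊤ K) → Sm (nb ⊤ K),
    (∀ f, Bs K f → X f = ∑ d, vk (nb ⊤ K) c.X d * (hp _).L d f) →
    ((∀ᶠ p in l0 c κ k L m s WT, p.2 ∈ K p.1) →
      ∃ Λ : Ln (ev K) (comap Subtype.val (l0 c κ k L m s WT))
        (comap Subtype.val (l0 c κ k L m s WT ⊓ 𝓟 {p | c.psi (pj p.2) < 0})) X (Bs K),
        Λ.Int fun p => (1 + |p.1.2.1|) ^ (-s) + |dd c (pj p.1.2)|) ∧
    ((∀ᶠ p in l0 c κ k L m s WO, p.2 ∈ K p.1) →
      ∃ Λ : Ln (ev K) (comap Subtype.val (l0 c κ k L m s WO))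
        (comap Subtype.val (l0 c κ k L m s WO ⊓
          𝓟 {p | c.psi (pj p.2) < 0 ∨ dd c (pj p.2) ∈ WT})) X (Bs K), Λ.Int o1)

end Vale.Agent.P354HI
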