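import Vale.Agent.P354NP.Ext

/-!
The complex Killing field of an algebra of exact type D commutes with the six derivations.
-/

namespace Vale.Agent.P354HI

open Vale.Agent.P354NP

variable {A : Type*} [CommRing A] [StarRing A] [Algebra ℂ A] (T : TD A)

/-- Twice the components of the Killing field. -/
def x2 : Fin 6 → A :=
  ![2 * (T.ze * T.r2), -(2 * (T.ze * T.r)), -(2 * (T.ze * T.t2)), 2 * (T.ze * T.t), -T.zi ^ 2,
    2 * (T.ze * (T.a - T.t * T.t2 - T.r * T.r2 + T.t * star T.t)) + T.zi ^ 2]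

theorem td_kill (b e : Fin 6) : ∑ a, x2 T a * T.cc a b e - T.D b (x2 T e) = 0 := by
  have z := T.zezi
  have hb := T.b_eq
  have he := T.e_eq
  have n1 := T.n1
  have n2 := T.n2
  fin_cases b <;> fin_cases e <;>
    simp only [x2, TD.cc, TD.up, TD.D, Fin.sum_univ_six, Fin.reduceFinMk, Matrix.cons_val,
      Pi.zero_apply, map_add, map_sub, map_neg, dmul, dsq, d2n, T.ze0, T.ze1, T.ze2, T.ze3, T.zi0,
      T.zi1, T.zi2, T.zi3, T.Hze, T.Hbze, T.Hzi, T.Hbzi, T.r_0, T.r_1, T.r_2, T.r_3, T.r2_0, T.r2_1,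
      T.r2_2, T.r2_3, T.t_0, T.t_1, T.t_2, T.t_3, T.t2_0, T.t2_1, T.t2_2, T.t2_3, T.a_0, T.a_1, T.a_2,
      T.a_3, T.Ha, T.Hba, T.Hr, T.Hbr, T.Hr2, T.Hbr2, T.Ht, T.Hbt, T.Ht2, T.Hbt2, T.d0s, T.d1s, T.d2s,
      T.d3s, T.Hs, T.Hbs, star_mul', star_sub, star_star, star_pow, star_neg]
  all_goals first | ring1 | grind

theorem td_kill' : ∑ a, x2 T a * T.D a (star T.ze) = 0 := by
  have n := T.n12
  simp only [x2, TD.D, Fin.sum_univ_six, Matrix.cons_val, T.d0s, T.d1s, T.d2s, T.d3s, T.Hs, T.Hbs,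
    T.ze0, T.ze1, T.ze2, T.ze3, T.Hze, T.Hbze, star_mul', star_neg, star_zero]
  linear_combination 2 * T.ze * star T.ze * n

end Vale.Agent.P354HI
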