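import Vale.Agent.P354HI.Jc
import Vale.Agent.P354HK.Kill
import Vale.Agent.P354Z.Est

/-!
Finite type: the jets of all GHP data are bounded by the jets of P0 and P4.
-/

open Filter Asymptotics

namespace Vale.Agent.P354HI

open Vale.Agent.P354XF (wd Tv Gen Gn M Up fr lv)
open Vale.Agent.P354XG (Der GHP D_mul D_zero)
open Vale.Agent.P354Z (f4)
open Vale.Agent.P354HK (of_gen up_gz)

variable {A : Type} {P ι : Type*} [CommRing A] [Algebra ℂ A] {φ : P → A →ₐ[ℂ] ℂ} {l : Filter P}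
  {a η u : P → ℝ} {f : A} {j n k m s : ℕ}

/-- The values of the conjugate. -/
def Cj (φ : P → A →ₐ[ℂ] ℂ) (c : A →+* A) : Prop := ∀ p f, φ p (c f) = starRingEnd ℂ (φ p f)

theorem O.cj {c : A →+* A} (hc : Cj φ c) (h : O φ l a f) : O φ l a (c f) :=
  (h.norm_left.congr_left fun p => by rw [hc, RCLike.norm_conj]).of_norm_left

theorem O.mulb {g : A} (h : O φ l a f) (h' : O φ l o1 g) : O φ l a (f * g) :=
  mul_comm g f ▸ h'.bmul h

theorem mbd {G : Type*} {g : Gen G A} (e1 : η =O[l] (o1 : P → ℝ)) (e2 : (o1 : P → ℝ) =O[l] u)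
    (hb : ∀ x, ¬ g.sm x → O φ l o1 (g.x x))
    (hs : ∀ x, g.sm x → (g.lev x ≤ m → O φ l η (g.x x)) ∧ (g.lev x ≤ m + 1 → O φ l u (g.x x)))
    (h : M g j n s k f) :
    (n ≤ m → O φ l o1 f ∧ (1 ≤ s → O φ l η f)) ∧ (n ≤ m + 1 → O φ l u f) := by
  induction h with
  | zero => exact ⟨fun _ => ⟨.zero, fun _ => .zero⟩, fun _ => .zero⟩
  | const z => exact ⟨fun _ => ⟨.alg z, fun e => by omega⟩, fun _ => (O.alg z).mono e2⟩
  | gen x =>
    by_cases e : g.sm x
    · exact ⟨fun k => ⟨((hs x e).1 k).mono e1, fun e => by omega⟩, (hs x e).2⟩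
    · exact ⟨fun _ => ⟨hb x e, fun e => by omega⟩, fun _ => (hb x e).mono e2⟩
  | small x e => exact ⟨fun k => ⟨((hs x e).1 k).mono e1, fun _ => (hs x e).1 k⟩, (hs x e).2⟩
  | add _ _ h1 h2 => exact ⟨fun k => ⟨(h1.1 k).1.add (h2.1 k).1,
      fun e => ((h1.1 k).2 e).add ((h2.1 k).2 e)⟩, fun k => (h1.2 k).add (h2.2 k)⟩
  | @mul _ n n' s s' _ _ _ _ _ h1 h2 =>
    refine ⟨fun k => ⟨(h1.1 (by omega)).1.bmul (h2.1 (by omega)).1, fun e => ?_⟩, fun k => ?_⟩
    · rcases Nat.eq_zero_or_pos s with e | e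
      · exact (h1.1 (by omega)).1.bmul ((h2.1 (by omega)).2 (by omega))
      · exact ((h1.1 (by omega)).2 e).mulb (h2.1 (by omega)).1
    · by_cases e : n ≤ m
      · exact (h1.1 e).1.bmul (h2.2 (by omega))
      · exact (h1.2 (by omega)).mulb (h2.1 (by omega)).1
  | mono _ _ e e' _ h => exact ⟨fun k => ⟨(h.1 (by omega)).1, fun _ => (h.1 (by omega)).2 (by omega)⟩,
      fun k => h.2 (by omega)⟩

theorem mwd {G : Type*} {g : Gen G A} {D : ι → Der A} (up : ∀ b, Up g 0 (D b)) (h : M g j n s k f)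
    (w : List ι) : M g (j + w.length) (n + w.length) s k (wd D w f) := by
  induction w with
  | nil => exact h
  | cons b w ih => exact ih.der (up b)

/-- The elements which have weights. -/
def W2 (G : GHP A) (f : A) : Prop := ∃ p q : ℤ, G.H f = p * f ∧ G.Hb f = q * f

variable {G : GHP A}

theorem W2.f4 (h : G.Is) (w : W2 G f) (i : Fin 4) : W2 G (f4 G i f) := by
  obtain ⟨p, q, e, e'⟩ := w
  have z : ∀ (D : Der A) (p : ℤ), D (p * f) = p * D f := fun D p => by
    rw [D_mul, D.map_intCast, mul_zero, add_zero]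
  fin_cases i
  · exact ⟨p + 1, q + 1, (h.H_th f).trans (by rw [e, z]; simp [P354Z.f4, add_mul]),
      (h.Hb_th f).trans (by rw [e', z]; simp [P354Z.f4, add_mul])⟩
  · exact ⟨p - 1, q - 1, (h.H_tp f).trans (by rw [e, z]; simp [P354Z.f4, sub_mul]),
      (h.Hb_tp f).trans (by rw [e', z]; simp [P354Z.f4, sub_mul])⟩
  · exact ⟨p + 1, q - 1, (h.H_et f).trans (by rw [e, z]; simp [P354Z.f4, add_mul]),
      (h.Hb_et f).trans (by rw [e', z]; simp [P354Z.f4, sub_mul])⟩
  · exact ⟨p - 1, q + 1, (h.H_ep f).trans (by rw [e, z]; simp [P354Z.f4, sub_mul]),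
      (h.Hb_ep f).trans (by rw [e', z]; simp [P354Z.f4, add_mul])⟩

/-- From four letters to six letters. -/
theorem J.six (h : G.Is) (w : W2 G f) (e : J φ l (f4 G) n (fun _ => a) f) :
    J φ l (fr G) n (fun _ => a) f := by
  induction n generalizing f with
  | zero => exact .zero' e.val
  | succ n ih =>
    refine .succ e.val fun b => ?_
    have k := fun i => ih (w.f4 h i) (e.d i)
    obtain ⟨p, q, e1, e2⟩ := id w
    have k' := fun p : ℤ => (J.int p).bmul (ih w (e.le n.le_succ))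
    fin_cases b
    exacts [k 0, k 1, k 2, k 3, e1 ▸ k' p, e2 ▸ k' q]

theorem J.four {α : ℕ → P → ℝ} (e : J φ l (fr G) n α f) : J φ l (f4 G) n α f := by
  induction n generalizing f α with
  | zero => exact .zero' e.val
  | succ n ih =>
    refine .succ e.val fun b => ih ?_
    fin_cases b
    exacts [e.d 0, e.d 1, e.d 2, e.d 3]

theorem absorb {v : P → ℝ} (h : v =O[l] fun p => η p * (1 + v p)) (e : η =o[l] (o1 : P → ℝ)) :
    v =O[l] η := by
  have k : (fun p => η p * v p) =o[l] v := by simpa using e.mul_isBigO (isBigO_refl v l)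
  obtain ⟨C, hC, h⟩ := h.exists_pos
  refine IsBigO.of_bound (2 * C) ?_
  filter_upwards [h.bound, k.def (show 0 < 1 / (2 * C) by positivity)] with p h1 h2
  rw [mul_add, mul_one] at h1
  have := mul_le_mul_of_nonneg_left ((norm_add_le _ _).trans (add_le_add_right h2 ‖η p‖)) hC.le
  rw [mul_add, ← mul_assoc, show C * (1 / (2 * C)) = 1 / 2 by field_simp] at this
  linarith

/-- The hypotheses: the generators are bounded and the jets of P0 and P4 are small. -/
structure Fh (φ : P → A →ₐ[ℂ] ℂ) (l : Filter P) (T : Tv A) (zi : A) (L : ℕ) (η : P → ℝ) :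
    Prop where
  e3 : zi ^ 3 = T.G.P2
  cj : Cj φ T.G.c
  big : ∀ x, ¬ (gz T zi).sm x → O φ l o1 ((gz T zi).x x)
  sml : η =o[l] (o1 : P → ℝ)
  h0 : J φ l (fr T.G) L (fun _ => η) T.G.P0
  h4 : J φ l (fr T.G) L (fun _ => η) T.G.P4

variable {T : Tv A} {zi : A} {L : ℕ}

theorem gz_sm (hc : Cj φ T.G.c) (h : ∀ i w, lv i + w.length ≤ m → O φ l a (wd (fr T.G) w (T.sb i))) :
    ∀ x, (gz T zi).sm x → (gz T zi).lev x ≤ m → O φ l a ((gz T zi).x x) := by
  rintro ⟨b, _ | _ | _ | _ | _ | ⟨i, w⟩⟩ e e' <;> try exact e.elim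
  cases b
  exacts [h i w e', (h i w e').cj hc]

theorem Fh.gen (h : Fh φ l T zi L η) : ∀ m ≤ L, ∀ i w, lv i + w.length ≤ m →
    O φ l η (wd (fr T.G) w (T.sb i)) := by
  have k0 : ∀ (i : Fin 6) w, i.val < 2 → w.length ≤ L → O φ l η (wd (fr T.G) w (T.sb i)) :=
    fun i w e e' => by
      fin_cases i <;> first | exact absurd e (by decide) | skip
      exacts [h.h0 w e', h.h4 w e']
  intro m
  induction m with
  | zero =>
    exact fun _ i w e => k0 i w (by by_contra k; simp [lv, k] at e) (by omega)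
  | succ m ih =>
    intro hm
    obtain ⟨v, hv⟩ : ∃ v : P → ℝ, v = fun p =>
      ∑ i, ∑ w : List.Vector (Fin 6) m, ‖φ p (wd (fr T.G) w.1 (T.sb i))‖ := ⟨_, rfl⟩
    have v1 : ∀ i w, w.length = m → O φ l v (wd (fr T.G) w (T.sb i)) := fun i w e =>
      isBigO_of_le _ fun p => by
        rw [hv]
        exact ((Finset.single_le_sum (f := fun w : List.Vector (Fin 6) m =>
          ‖φ p (wd (fr T.G) w.1 (T.sb i))‖) (fun _ _ => norm_nonneg _)
          (Finset.mem_univ ⟨w, e⟩)).trans (Finset.single_le_sum (f := fun i =>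
            ∑ w : List.Vector (Fin 6) m, ‖φ p (wd (fr T.G) w.1 (T.sb i))‖)
            (fun _ _ => by positivity) (Finset.mem_univ i))).trans (le_abs_self _)
    have v0 : ∀ p, 0 ≤ v p := fun p => by rw [hv]; positivity
    have u1 : (o1 : P → ℝ) =O[l] fun p => 1 + v p := isBigO_of_le _ fun p => by
      simpa using (le_add_of_nonneg_right (v0 p)).trans (le_abs_self _)
    have u2 : v =O[l] fun p => 1 + v p := isBigO_of_le _ fun p => by
      simpa [abs_of_nonneg (v0 p)] using (le_add_of_nonneg_left zero_le_one).trans (le_abs_self _)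
    have fin : ∀ {a}, η =O[l] a → v =O[l] a → ∀ i w, lv i + w.length ≤ m + 1 →
        O φ l a (wd (fr T.G) w (T.sb i)) := fun e1 e2 i w e => by
      by_cases k : i.val < 2
      · exact (k0 i w k (by omega)).mono e1
      · by_cases k' : w.length = m
        · exact (v1 i w k').mono e2
        · exact (ih (by omega) i w (by simp only [lv, k, if_false] at e ⊢; omega)).mono e1
    have b := fun {j n s k f} => mbd (φ := φ) (j := j) (n := n) (s := s) (k := k) (f := f)
      h.sml.isBigO u1 h.big fun x e => ⟨gz_sm h.cj (ih (by omega)) x e,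
        gz_sm h.cj (fin (h.sml.isBigO.trans u1) u2) x e⟩
    have u3 : η =O[l] fun p => η p * (1 + v p) := by simpa using (isBigO_refl η l).mul u1
    have rc : ∀ {x y Q : A} (e : Fin 6), M T.gen 1 1 0 0 y → J φ l (fr T.G) L (fun _ => η) Q →
        3 * x * T.G.P2 = fr T.G e Q - y * Q →
        J φ l (fr T.G) m (fun _ p => η p * (1 + v p)) x := fun {x y Q} e hy hQ q => by
      rw [show x = T.Pi * (fr T.G e Q - y * Q) by linear_combination T.Pi * q - x * T.inv]
      refine J.bmul (fun w hw => ((b (mwd (up_gz h.e3) (of_gen T.mPi) w)).1 (by omega)).1)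
        ((((hQ.le hm).d e).mono le_rfl fun _ _ => u3).sub (J.mul (α := fun _ p => 1 + v p)
          (fun w hw => (b (mwd (up_gz h.e3) (of_gen hy) w)).2 (by omega)) (hQ.le (by omega))
          fun _ _ _ => by simpa only [mul_comm] using isBigO_refl _ _))
    refine fin (isBigO_refl _ _) (absorb ?_ h.sml)
    suffices H : ∀ i (w : List.Vector (Fin 6) m),
        O φ l (fun p => η p * (1 + v p)) (wd (fr T.G) w.1 (T.sb i)) by
      nth_rewrite 1 [hv]
      exact IsBigO.fun_sum fun i _ => IsBigO.fun_sum fun w _ => (H i w).norm_left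
    intro i w
    fin_cases i
    exacts [(h.h0 _ (by rw [w.2]; omega)).mono u3, (h.h4 _ (by rw [w.2]; omega)).mono u3,
      rc 3 (T.my 3) h.h0 (T.is.tr_ka T.h1) _ w.2.le, rc 1 (T.my 1) h.h0 (T.is.tr_si T.h1) _ w.2.le,
      rc 2 (T.my 2) h.h4 (T.is.pr.tr_ka T.h3) _ w.2.le,
      rc 0 (T.my 0) h.h4 (T.is.pr.tr_si T.h3) _ w.2.le]

/-- **Finite type.** -/
theorem Fh.jet (h : Fh φ l T zi L η) (e : M (gz T zi) j n s k f) (hn : n + m < L) :
    J φ l (fr T.G) m (fun _ => o1) f ∧ (1 ≤ s → J φ l (fr T.G) m (fun _ => η) f) := by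
  have g := gz_sm (zi := zi) h.cj (h.gen L le_rfl)
  have b := fun (w : List (Fin 6)) (hw : w.length ≤ m) => (mbd (φ := φ) (m := L - 1) h.sml.isBigO
    (isBigO_refl _ _) h.big (fun x e => ⟨fun k => g x e (by omega),
      fun _ => (g x e (by omega)).mono h.sml.isBigO⟩) (mwd (up_gz h.e3) e w)).1 (by omega)
  exact ⟨fun w hw => (b w hw).1, fun k w hw => (b w hw).2 k⟩

end Vale.Agent.P354HI
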