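import Vale.Agent.P354HI.Zon
import Vale.Agent.P354BO.Lowu
import Vale.Agent.P354CS.Link
import Vale.Agent.P354NP.Kcl

/-!
The data of a zone as germs, and their bounds.
-/

open scoped ContDiff
open Set Filter Topology Complex Asymptotics

noncomputable section

namespace Vale.Agent.P354HI

open Vale.Agent.P354XG Vale.Agent.P354XD Vale.Agent.P354XR Vale.Agent.P354YA
open Vale.Agent.P354XF (fr)
open Vale.Agent.P354XE (Tw gin rd)
open Vale.Agent.P354XV (Fst dd_cont)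
open Vale.Agent.P354YT (Pm)
open Vale.Agent.P354Z (f4 sc)
open Vale.Agent.P354CS (G1_ev ku pos vac)
open Vale.Agent.P354BO (hom1 hom2)

variable {c : Pm} {K K' : Tw → Set E6} {κ s e C : ℝ} {k L m n : ℕ} {U W : Set ℝ}
  {F F' : Filter (Tw × E6)} {g : Tw} {x : E6}

theorem ev_at {Q : Tw × E6 → Prop} (e : ∀ᶠ p in nb ⊤ K, Q p) (h : x ∈ K g) : Q (g, x) :=
  eventually_top.1 (ev_nb_on e) g x h

theorem J.qq {ι : Type} [Fintype ι] {D : ι → Der (Sm (nb ⊤ K))} {l : Filter (Pz K)} {a : Pz K → ℝ}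
    {f : Sm (nb ⊤ K)} (h : (fun p : Pz K => qq D p.1 n f) =O[l] fun p => a p ^ 2) :
    J (ev K) l D n (fun _ => a) f := by
  have k : ∀ {u v : Pz K → ℝ}, (∀ p, 0 ≤ u p) → (∀ p, u p ≤ v p) → u =O[l] v := fun h h' =>
    isBigO_of_le _ fun p => (abs_of_nonneg (h p)).trans_le ((h' p).trans (le_abs_self _))
  have v : ∀ {n f}, ((fun p : Pz K => P354YA.qq D p.1 n f) =O[l] fun p => a p ^ 2) →
      O (ev K) l a f := fun {n f} h => (IsBigO.of_pow two_ne_zero ((k (fun _ => sq_nonneg _)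
        fun p => qq_mono D p.1 n.zero_le f).trans h)).of_norm_left
  induction n generalizing f with
  | zero => exact .zero' (v h)
  | succ n ih =>
    exact .succ (v h) fun i => ih ((k (fun _ => qq_nonneg _ _ _ _) fun p =>
      (Finset.single_le_sum (f := fun i => P354YA.qq D p.1 n (D i f)) (fun _ _ => qq_nonneg _ _ _ _)
        (Finset.mem_univ i)).trans (le_add_of_nonneg_left (qq_nonneg _ _ _ _))).trans h)

/-- The points at which the data are defined. -/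
def Gw (c : Pm) (K : Tw → Set E6) : Prop :=
  ∀ᶠ p in nb ⊤ K, p.2 ∈ K1 c.M c.a p.1 ∧ rep (nr (G1 c.M c.a) c.M c.a id) p ≠ 0

theorem Gw.k1 (h : Gw c K) : ∀ᶠ p in nb ⊤ K, p.2 ∈ K1 c.M c.a (id p.1) := h.mono fun _ k => k.1

theorem Gw.val (h : Gw c K) {u : Sm (G1 c.M c.a)} {v : Sm (nb ⊤ K)} (e : (rx_of h.k1).rix u = v)
    (p : Pz K) : ev K p v = rep u p.1 := e ▸ ev_pz K ((rx_of h.k1).rep u) p

theorem Gw.nr (h : Gw c K) : IsUnit (nr (nb ⊤ K) c.M c.a id) :=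
  (P354CS.hom1 h.k1).2.2.2.2 ▸ ((rx_of h.k1).rep _).unit (h.mono fun _ k => k.2)

theorem cj_kf {J : Type} {G : Filter (J × E6)} [Loc G] {f : Sm G} {h : J × E6 → ℝ}
    (e : Rs f fun p => (h p : ℂ)) : cj f = f := e.cj.ext e (.of_forall fun _ => conj_ofReal _)

/-- The data. -/
def dz (o : c.Ok) (h : Gw c K) : Dt (Sm (nb ⊤ K)) where
  K := hp _
  S := sG _ id
  F := fT _ c.M c.a id
  Pi := Ring.inverse (3 * (gT _ c.M c.a id).P2)
  ze := ze _ c.M c.a id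
  zi := zi _ c.M c.a id
  rt := rt _ c.M c.a id
  ni := ni _ c.M c.a id
  k := c0 c.M
  Ξ := vk _ c.X
  kis := hp_is (pos h.k1).off
  sL := rfl
  sH := rfl
  sB := rfl
  sis := sG_is (ku h.k1)
  wn := (fT_wn (ku h.k1)).1
  h1 := (fT_wn (ku h.k1)).2.1
  h3 := (fT_wn (ku h.k1)).2.2
  inv := Ring.inverse_mul_cancel _
    (((rs_num 3).unit (.of_forall fun _ => by norm_num)).mul (P354CS.P2_unit h.k1))
  e1 := P354CS.ze_zi h.k1 ((abs_nonneg _).trans_lt o.sub)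
  e3 := P354CS.zi_cube h.k1 ((abs_nonneg _).trans_lt o.sub)
  er := by
    have e : algebraMap ℂ (Sm (nb ⊤ K)) (c0 c.M) * algebraMap ℂ _ ((c0 c.M)⁻¹ : ℝ) = 1 := by
      rw [← map_mul, ← ofReal_mul, mul_inv_cancel₀ (P354CS.c0_ne ((abs_nonneg _).trans_lt o.sub)),
        ofReal_one, map_one]
    rw [ze, map_mul, (sG_is (ku h.k1)).calg, conj_ofReal, ← mul_add, ← mul_assoc (algebraMap _ _ _),
      e, one_mul]
    rfl
  en := Ring.mul_inverse_cancel _ h.nr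
  cΞ := funext fun d => cj_kf (P354CS.rs_vk (pos h.k1) o d).2

/-- The conclusion of LOWU. -/
def Lw (c : Pm) (n : ℕ) (C e : ℝ) (p : Tw × E6) : Prop := Sg c e p ∧
  (∀ i, qq (f4 (gT (G1 c.M c.a) c.M c.a id)) p n (dt (G1 c.M c.a) c.M c.a id i) ≤ C) ∧
  ‖(vP c.M c.a p)⁻¹‖ ≤ C ∧ ‖(rep (nr (G1 c.M c.a) c.M c.a id) p)⁻¹‖ ≤ C ∧
  (|dd c (pj p.2)| < 2 → ‖(rep (lr (G1 c.M c.a) c.M c.a id) p)⁻¹‖ ≤ C) ∧
  ∀ i, ‖rep (f4 (gT (G1 c.M c.a) c.M c.a id) i (rt (G1 c.M c.a) c.M c.a id - (hp _).z 1)) p‖ ≤ e ∧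
    (2 ≤ i → ‖rep (f4 (gT (G1 c.M c.a) c.M c.a id) i ((hp _).z 1)) p‖ ≤ e)

theorem cm_ev {Q : Tw × E6 → Prop} (h : ∀ᶠ p in F, Q p) :
    ∀ᶠ p : Pz K in comap Subtype.val F, Q p.1 := tendsto_comap.eventually h

theorem Gw.jd (h : Gw c K) (b : ∀ᶠ p in F, Lw c n C e p) (i) : J (ev K) (comap Subtype.val F)
    (f4 (gT (nb ⊤ K) c.M c.a id)) n (fun _ => o1) (dt (nb ⊤ K) c.M c.a id i) := by
  have q := (rx_of h.k1).qq (f4_hom (hom1 (rx_of h.k1)).2.2.2.2.1) n (dt _ c.M c.a id i)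
  rw [(hom2 (rx_of h.k1)).2] at q
  refine J.qq (.of_bound C ((cm_ev b).mono fun p k => ?_))
  rw [Real.norm_of_nonneg (qq_nonneg _ _ _ _), ev_at q p.2]
  simpa using k.2.1 i

theorem l0_ev (he : 0 < e) : ∀ᶠ p in l0 c κ k L m s W, ∃ V, Hy c κ k L m s e V p.1 ∧
    p.2 ∈ Zs c.sc c.Rs ∧ c.tau (pj p.2) < V ∧ dd c (pj p.2) ∈ W :=
  mem_iInf_of_mem e (mem_iInf_of_mem he (mem_principal_self _))

theorem l0_le (h : F ≤ l0 c κ k L m s W) (h' : ∀ᶠ p in F, dd c (pj p.2) ∈ U) :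
    F ≤ l0 c κ k L m s U := le_iInf₂ fun _ he => le_principal_iff.2
  (((l0_ev he).filter_mono h).mp (h'.mono fun _ a ⟨V, a1, a2, a3, _⟩ => ⟨V, a1, a2, a3, a⟩))

theorem l0_dd : ∀ᶠ p in l0 c κ k L m s W, dd c (pj p.2) ∈ W :=
  (l0_ev one_pos).mono fun _ ⟨_, a⟩ => a.2.2.2

theorem l0_ex {Q : Tw × E6 → Prop} (h : ∀ᶠ p in l0 c κ k L m s univ, Q p) : ∃ e > 0, ∀ V g,
    Hy c κ k L m s e V g → ∀ x ∈ Zs c.sc c.Rs, c.tau (pj x) < V → Q (g, x) := by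
  have mono : ∀ {e e' V g}, 0 < e → e ≤ e' → Hy c κ k L m s e V g → Hy c κ k L m s e' V g :=
    fun h0 h1 h => ⟨h.fst, fun x hx hV => ⟨P354YO.bd_mono (h.boot x hx hV).1 le_rfl h1,
      (h.boot x hx hV).2.trans (by gcongr)⟩,
      fun x hx hV h2 => P354YO.bd_mono (h.col x hx hV h2) le_rfl h1⟩
  rw [l0, (hasBasis_biInf_principal (S := Ioi 0) ?_ ⟨1, one_pos⟩).eventually_iff] at h
  · obtain ⟨e, he, h⟩ := h
    exact ⟨e, he, fun V g a x hx hV => h ⟨V, a, hx, hV, trivial⟩⟩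
  · exact fun e (he : 0 < e) e' (he' : 0 < e') => ⟨min e e', lt_min he he',
      fun _ ⟨V, a⟩ => ⟨V, mono (lt_min he he') (min_le_left _ _) a.1, a.2⟩,
      fun _ ⟨V, a⟩ => ⟨V, mono (lt_min he he') (min_le_right _ _) a.1, a.2⟩⟩

theorem l0_r : ∀ᶠ p in l0 c κ k L m s W, p.2.2.1 ∈ Icc c.r1 c.Rs :=
  (l0_ev one_pos).mono fun _ ⟨_, a⟩ => ⟨Zs.rd a.2.1 ▸ a.2.1.2.2.2.1.1.le, a.2.1.2.2.1⟩

theorem l0_eta (he : 0 < e) : ∀ᶠ p in l0 c κ k L m s W,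
    √(eta c.M c.a L p.1 p.2) ≤ e * (1 + |p.2.1|) ^ (-s) :=
  (l0_ev he).mono fun _ ⟨_, a⟩ => Real.sqrt_le_iff.2 ⟨by positivity,
    (a.1.boot _ a.2.1 ((add_zero _).trans_lt a.2.2.1)).2⟩

theorem l0_fst (o : c.Ok) : ∀ᶠ p in l0 c κ k L m s W,
    p.2.2.2 ≠ 0 ∧ ∀ᶠ y in 𝓝 p.2, Fst c κ p.1 (pj y) :=
  (l0_ev one_pos).mono fun _ ⟨_, a⟩ => by
    have n := ne_of_nq a.2.1.1
    have k := o.is.opn.mem_nhds a.2.1.2.2.2.1
    exact ⟨n, (cd_pj n).continuousAt.eventually ((show ∀ᶠ y in _, y ∈ c.sc.O from k).mp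
      (((o.is.smt.continuousOn.continuousAt k).eventually_lt_const a.2.2.1).mono
        fun y h h' => a.1.fst y ⟨h', .inl h⟩))⟩

/-- The bounds of low order, and the bounds in the collar. -/
theorem low {M a : ℝ} (h : |a| < M) (n : ℕ) : ∃ m0, ∀ c : Pm, c.M = M → c.a = a → Ok2 c → c.k = 1 →
    ∃ C, ∀ κ k L m s W, ∀ e > 0, (m0 ≤ k → ∀ᶠ p in l0 c κ k L m s W, Lw c n C e p) ∧
      (m0 ≤ m → ∀ᶠ p in l0 c κ k L m s W, c.psi (pj p.2) < 0 → Lw c n C e p) := by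
  obtain ⟨m0, H⟩ := P354BO.lowu M a h n
  refine ⟨m0, fun c hM ha o k1 => ?_⟩
  obtain ⟨C, H⟩ := H c hM ha o k1
  subst hM ha
  refine ⟨C, fun κ k L m s W e he => ?_⟩
  obtain ⟨δ, d0, H⟩ := H e he
  have key : ∀ᶠ p in l0 c κ k L m s W, P354XE.Bd m0 (p.1 - gin c.M c.a) (pj p.2) δ → Lw c n C e p := by
    filter_upwards [l0_ev one_pos, l0_r, l0_fst o.1] with p ⟨_, a⟩ a1 a2
    obtain ⟨D, v, hp⟩ := a2.2.self_of_nhds.lv
    exact H p a.2.1.1 a1.1 a1.2 ⟨D, v.isOpen, hp, v.met, v.vac⟩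
  exact ⟨fun hk => key.mp ((l0_ev d0).mono fun p ⟨_, a⟩ b => b (P354YO.bd_mono
      (a.1.boot _ a.2.1 ((add_zero _).trans_lt a.2.2.1)).1 hk le_rfl)),
    fun hk => key.mp ((l0_ev d0).mono fun p ⟨_, a⟩ b t => b (P354YO.bd_mono
      (a.1.col _ a.2.1 a.2.2.1 t) hk le_rfl))⟩

theorem pw_le (hs : 0 ≤ s) (t : ℝ) : (1 + |t|) ^ (-s) ≤ 1 :=
  Real.rpow_le_one_of_one_le_of_nonpos (by linarith [abs_nonneg t]) (by linarith)

/-- The bounds in a zone. -/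
theorem bz (o : c.Ok) (h : Gw c K) (hF : F ≤ l0 c κ k L m s W) (hs : 0 ≤ s)
    (b : ∀ᶠ p in F, Lw c 1 C e p) {B : Set (Sm (nb ⊤ K))}
    (kc : Kc (ev K) (comap Subtype.val F) (hp _) B) (hX : ∀ d, vk _ c.X d ∈ B) :
    Bz (dz o h) (ev K) (comap Subtype.val F) B L fun p => √(eta c.M c.a L p.1.1 p.1.2) := by
  have q : ∀ p : Pz K, etG (gT (nb ⊤ K) c.M c.a id) L p.1 =
      √(eta c.M c.a L p.1.1 p.1.2) ^ 2 := fun p => by
    rw [Real.sq_sqrt (eta_nonneg _ _ _)]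
    exact ev_at (etG_eq (ku h.k1) L) p.2
  refine ⟨fh_of (dz o h).e3 (fun p f => ev_pz K (rep_cj f) p) (fun i => h.jd b (.inr (.inr i)))
    (c := C) ((cm_ev b).mono fun p k => ?_) (.of_bound fun e he => ?_)
    (J.qq (isBigO_of_le _ fun p => ?_)) (J.qq (isBigO_of_le _ fun p => ?_)), kc, hX,
    O.inv (dz o h).en (c := C) ((cm_ev b).mono fun p k => ?_),
    fun i d => h.jd b (.inl (i, d)), fun i d => h.jd b (.inr (.inl (i, d)))⟩
  · exact (congrArg (‖·⁻¹‖) (ev_pz K (P354CS.rs_P2 h.k1) p)).trans_le k.2.2.1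
  · refine (cm_ev ((l0_eta he).filter_mono hF)).mono fun p k => ?_
    rw [Real.norm_of_nonneg (Real.sqrt_nonneg _)]
    exact k.trans (mul_le_mul_of_nonneg_left ((pw_le hs _).trans_eq norm_one.symm) he.le)
  · rw [← q, Real.norm_of_nonneg (qq_nonneg _ _ _ _)]
    exact (le_add_of_nonneg_right (qq_nonneg _ _ _ _)).trans (le_abs_self _)
  · rw [← q, Real.norm_of_nonneg (qq_nonneg _ _ _ _)]
    exact (le_add_of_nonneg_left (qq_nonneg _ _ _ _)).trans (le_abs_self _)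
  · exact (congrArg (‖·⁻¹‖) (h.val ((hom2 _).1 (.inl 1)) p)).trans_le k.2.2.2.1

/-! ### Inclusion of zones -/

section inc
variable (z : ∀ g, K' g ⊆ K g)
include z

theorem rx_inc : Rx (nb ⊤ K') (nb ⊤ K) id := rx_nb (.of_forall z)

/-- The inclusion of the points. -/
def inc (p : Pz K') : Pz K := ⟨p.1, z _ p.2⟩

theorem ev_inc (p : Pz K') (f : Sm (nb ⊤ K)) : ev K' p ((rx_inc z).rix f) = ev K (inc z p) f :=
  ev_pz K' ((rx_inc z).rep f) p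

theorem inc_le (h : F' ≤ F) : map (inc z) (comap Subtype.val F') ≤ comap Subtype.val F :=
  map_le_iff_le_comap.2 (by rw [comap_comap]; exact comap_mono h)

theorem le_inc (h : F ≤ F') (h' : ∀ᶠ p in F, p.2 ∈ K' p.1) :
    comap Subtype.val F ≤ map (inc z) (comap Subtype.val F') := fun _ ⟨_, h1, h2⟩ =>
  ⟨_, inter_mem (h h1) h', fun p hp => h2 (show (⟨p.1, hp.2⟩ : Pz K') ∈ _ from hp.1)⟩

omit z in
theorem hom3 {J J' : Type} {G : Filter (J × E6)} {G' : Filter (J' × E6)} [Loc G] [Loc G'] {j : J' → J}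
    {g : J → Tw} {M a : ℝ} (r : Rx G' G j) (h : ∀ᶠ p in G, p.2 ∈ K1 M a (g p.1)) :
    GHom (sG G g) (sG G' (g ∘ j)) r.rix ∧ fm r.rix (fT G M a g) = fT G' M a (g ∘ j) ∧
      r.rix (rt G M a g) = rt G' M a (g ∘ j) ∧ r.rix (nr G M a g) = nr G' M a (g ∘ j) ∧
      ∀ c : Pm, c.Ok → vm r.rix (vk G c.X) = vk G' c.X := by
  have S : GHom (sG G g) (sG G' (g ∘ j)) r.rix := r.geo (pos h).off _ (vac h)
  have F : fm r.rix (fT G M a g) = fT G' M a (g ∘ j) :=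
    (r.rf (fT_rf (ku h))).ext (fT_rf (g := g ∘ j) (r.ev (ku h))) EventuallyEq.rfl
  have Y : r.rix (Yc G M a g) = Yc G' M a (g ∘ j) := r.rix_gm (P354CS.Yc_sm h)
  have R : r.rix (rt G M a g) = rt G' M a (g ∘ j) := by
    rw [rt, rt, map_mul, map_add, r.rix_cj, Y, map_hf]
  exact ⟨S, F, R, by rw [nr, nr, gT, gT, (S.ghp _).tp, R, F], fun c o => funext fun d =>
    r.rix_pb (pos h).off (P354CS.rs_vk (pos h) o d).1⟩

theorem dh (o : c.Ok) (h : Gw c K) (h' : Gw c K') : Dh (dz o h) (dz o h') (rx_inc z).rix := by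
  obtain ⟨S, F, R, N, X⟩ := hom3 (rx_inc z) h.k1
  rw [Function.id_comp] at S F R N
  exact ⟨S, F, R, ((rx_inc z).rix_inv h.nr).trans (congrArg Ring.inverse N), X c o⟩

theorem ks_inc (h : Pos (nb ⊤ K)) : ∀ f' ∈ KS (nb ⊤ K') 0, ∃ f ∈ KS (nb ⊤ K) 0,
    (rx_inc z).rix f = f' := fun _ ⟨u, h1, h2, h3⟩ =>
  ⟨_, ⟨u, h1, h2, rfl⟩, h3 ▸ (rx_inc z).rix_pb h.off (P354NP.smb_of le_rfl h h1)⟩

end inc

/-! ### The zones -/

/-- The points of the zone U at which the data are defined. -/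
def Kw (c : Pm) (κ : ℝ) (U : Set ℝ) (g : Tw) : Set E6 :=
  {x | ∀ᶠ y in 𝓝 x, (y ∈ K1 c.M c.a g ∧ rep (nr (G1 c.M c.a) c.M c.a id) (g, y) ≠ 0) ∧
    Fst c κ g (pj y) ∧ dd c (pj y) ∈ U}

theorem kw_ev : ∀ᶠ p in nb ⊤ (Kw c κ U), (p.2 ∈ K1 c.M c.a p.1 ∧
    rep (nr (G1 c.M c.a) c.M c.a id) p ≠ 0) ∧ Fst c κ p.1 (pj p.2) ∧ dd c (pj p.2) ∈ U :=
  ev_nb.2 (.of_forall fun _ _ h => h)

theorem kw_gw : Gw c (Kw c κ U) := kw_ev.mono fun _ k => k.1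

theorem kz_gd : Gd (nb ⊤ (Kz c κ e U)) c κ e id U := ev_nb.2 (.of_forall fun _ _ h => h)

theorem sg_ne {p : Tw × E6} (h : Sg c e p) : p.2 ∈ K1 c.M c.a p.1 ∧
    rep (nr (G1 c.M c.a) c.M c.a id) p ≠ 0 := ⟨h.k1, fun z => by simpa [z] using h.nr⟩

theorem kz_gw : Gw c (Kz c κ e U) := kz_gd.mono fun _ k => sg_ne k.1

theorem kz_sub (g : Tw) : Kz c κ e U g ⊆ Kw c κ univ g := fun _ h =>
  Eventually.mono h fun _ k => ⟨sg_ne k.1, k.2.1, trivial⟩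

theorem kw_sub (g : Tw) : Kw c κ U g ⊆ Kw c κ univ g := fun _ h =>
  Eventually.mono h fun _ k => ⟨k.1, k.2.1, trivial⟩

theorem ct (h : x ∈ K1 c.M c.a g) (f : Sm (G1 c.M c.a)) : ContinuousAt (fun y => rep f (g, y)) x :=
  (ev_at (rep_sm f) h).continuousAt

theorem dd_ev (h : x.2.2 ≠ 0) (u : IsOpen U) (e : dd c (pj x) ∈ U) :
    ∀ᶠ y in 𝓝 x, dd c (pj y) ∈ U :=
  (dd_cont.continuousAt.comp (cd_pj h).continuousAt).eventually (u.mem_nhds e)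

theorem mem_kw (o : c.Ok) (hF : F ≤ l0 c κ k L m s W) (b : ∀ᶠ p in F, Lw c n C e p) (u : IsOpen U)
    (d : ∀ᶠ p in F, dd c (pj p.2) ∈ U) : ∀ᶠ p in F, p.2 ∈ Kw c κ U p.1 := by
  filter_upwards [b, d, hF (l0_fst o)] with p b d a
  exact ((eventually_top.1 (ev_nb.1 G1_ev) _ _ b.1.k1).and
    ((ct b.1.k1 _).eventually_ne (sg_ne b.1).2)).and (a.2.and (dd_ev a.1 u d))

theorem mem_kz (o : c.Ok) (hF : F ≤ l0 c κ k L m s W) (b : ∀ᶠ p in F, Lw c n C e p) (u : IsOpen U)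
    (u2 : U ⊆ {d | |d| < 2}) (d : ∀ᶠ p in F, dd c (pj p.2) ∈ U) :
    ∀ᶠ p in F, p.2 ∈ Kz c κ e U p.1 := by
  filter_upwards [b, d, hF (l0_fst o)] with p ⟨b, _⟩ d a
  have r : ∀ f : Sm (G1 c.M c.a), ContinuousAt (fun y => (rep f (p.1, y)).re) p.2 := fun f =>
    continuous_re.continuousAt.comp (ct b.k1 f)
  have v : ContinuousAt (fun y => vP c.M c.a (p.1, y)) p.2 :=
    (ev_at (rep_sm _) b.k1.1).continuousAt
  have t : ContinuousAt (fun y => (Matrix.of fun i d =>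
      rep (fv (fT (G1 c.M c.a) c.M c.a id) i d) (p.1, y)).det.im) p.2 :=
    (continuous_im.comp continuous_id.matrix_det).continuousAt.comp
      (continuousAt_pi.2 fun i => continuousAt_pi.2 fun d => ct b.k1 _)
  refine Eventually.and ?_ (a.2.and (dd_ev a.1 u d))
  filter_upwards [eventually_top.1 (ev_nb.1 G1_ev) _ _ b.k1, (ct b.k1 _).norm.eventually_lt
    (continuousAt_const.mul (v.norm.pow 2)) b.tt, (r _).eventually_lt_const b.nr,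
    (r _).eventually_const_lt (b.lr (u2 d)), (r _).eventually_lt_const (b.fut (u2 d)),
    t.eventually_const_lt b.ori] with y h1 h2 h3 h4 h5 h6
  exact ⟨h1, h2, h3, fun _ => h4, fun _ => h5, h6⟩

end Vale.Agent.P354HI
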