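import Vale.Agent.P354XF.Ext
import Vale.Agent.P354XG.GHP

/-!
Graded bounds for the jets of an element along a family of derivations.
-/

open Filter Asymptotics

namespace Vale.Agent.P354HI

open Vale.Agent.P354XF (wd)
open Vale.Agent.P354XG (Der D_mul D_add D_sub D_neg D_zero D_alg)

variable {A P ι : Type*} [CommRing A] [Algebra ℂ A] (φ : P → A →ₐ[ℂ] ℂ) (l : Filter P)
  (D : ι → Der A)

/-- The values of f are bounded by a. -/
def O (a : P → ℝ) (f : A) : Prop := (fun p => φ p f) =O[l] a

/-- The words of length i at most m are bounded by α i. -/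
def J (m : ℕ) (α : ℕ → P → ℝ) (f : A) : Prop :=
  ∀ w : List ι, w.length ≤ m → O φ l (α w.length) (wd D w f)

/-- The bound a below the order n, and the bound b from the order n on. -/
def tp (n : ℕ) (a b : P → ℝ) : ℕ → P → ℝ := fun i => if i < n then a else b

/-- The constant one. -/
abbrev o1 : P → ℝ := fun _ => 1

variable {φ l D} {a b : P → ℝ} {f g : A} {m n : ℕ} {α β γ : ℕ → P → ℝ}

theorem O.mono (h : O φ l a f) (e : a =O[l] b) : O φ l b f := IsBigO.trans h e
theorem O.add (h : O φ l a f) (h' : O φ l a g) : O φ l a (f + g) := by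
  simpa only [O, map_add] using IsBigO.add h h'
theorem O.neg (h : O φ l a f) : O φ l a (-f) := by
  simpa only [O, map_neg] using IsBigO.neg_left h
theorem O.sub (h : O φ l a f) (h' : O φ l a g) : O φ l a (f - g) := by
  simpa only [O, map_sub] using IsBigO.sub h h'
theorem O.zero : O φ l a 0 := by simpa only [O, map_zero] using isBigO_zero _ _
theorem O.mul (h : O φ l a f) (h' : O φ l b g) : O φ l (fun p => a p * b p) (f * g) := by
  simp only [O, map_mul]
  exact ((IsBigO.mul (IsBigO.norm_left h) (IsBigO.norm_left h')).congr_left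
    fun p => (norm_mul _ _).symm).of_norm_left
theorem O.alg (z : ℂ) : O φ l o1 (algebraMap ℂ A z) := by
  simpa only [O, AlgHom.commutes] using isBigO_const_const _ (one_ne_zero (α := ℝ)) l
theorem O.sum {κ : Type*} (s : Finset κ) {f : κ → A} (h : ∀ i ∈ s, O φ l a (f i)) :
    O φ l a (∑ i ∈ s, f i) := Finset.sum_induction f (O φ l a) (fun _ _ => O.add) O.zero h
theorem O.bmul (h : O φ l o1 f) (h' : O φ l b g) : O φ l b (f * g) := by
  simpa only [one_mul] using h.mul h'

theorem wd_app (p q : List ι) (f : A) : wd D (p ++ q) f = wd D p (wd D q f) := by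
  induction p with
  | nil => rfl
  | cons a p ih => exact congrArg (D a) ih

theorem wd_add (w : List ι) (f g : A) : wd D w (f + g) = wd D w f + wd D w g := by
  induction w with
  | nil => rfl
  | cons a w ih => rw [wd, ih, D_add]; rfl

theorem wd_neg (w : List ι) (f : A) : wd D w (-f) = -wd D w f := by
  induction w with
  | nil => rfl
  | cons a w ih => rw [wd, ih, D_neg]; rfl

theorem wd_sub (w : List ι) (f g : A) : wd D w (f - g) = wd D w f - wd D w g := by
  rw [sub_eq_add_neg, wd_add, wd_neg, sub_eq_add_neg]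

theorem J.val (h : J φ l D m α f) : O φ l (α 0) f := h [] (Nat.zero_le _)

theorem J.mono (h : J φ l D m α f) (e : n ≤ m) (e' : ∀ i ≤ n, α i =O[l] β i) : J φ l D n β f :=
  fun w hw => (h w (hw.trans e)).mono (e' _ hw)

theorem J.le (h : J φ l D m α f) (e : n ≤ m) : J φ l D n α f :=
  h.mono e fun _ _ => isBigO_refl _ _

theorem J.wd (w : List ι) (h : J φ l D (m + w.length) α f) :
    J φ l D m (fun i => α (i + w.length)) (wd D w f) := fun v hv => by
  simpa only [wd_app, List.length_append] using h (v ++ w) (by simpa using hv)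

theorem J.d (h : J φ l D (m + 1) α f) (i : ι) : J φ l D m (fun i => α (i + 1)) (D i f) :=
  J.wd [i] h

theorem J.zero' (h : O φ l (α 0) f) : J φ l D 0 α f := fun w hw => by
  obtain rfl := List.length_eq_zero_iff.1 (Nat.le_zero.1 hw)
  exact h

theorem J.succ (h : O φ l (α 0) f) (h' : ∀ i, J φ l D m (fun i => α (i + 1)) (D i f)) :
    J φ l D (m + 1) α f := fun w hw => by
  rcases List.eq_nil_or_concat w with rfl | ⟨v, i, rfl⟩
  · exact h
  · rw [List.concat_eq_append, wd_app, List.length_append]
    exact h' i v (by simpa using hw)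

theorem J.add (h : J φ l D m α f) (h' : J φ l D m α g) : J φ l D m α (f + g) := fun w hw => by
  rw [wd_add]; exact (h w hw).add (h' w hw)

theorem J.neg (h : J φ l D m α f) : J φ l D m α (-f) := fun w hw => by
  rw [wd_neg]; exact (h w hw).neg

theorem J.sub (h : J φ l D m α f) (h' : J φ l D m α g) : J φ l D m α (f - g) := by
  rw [sub_eq_add_neg]; exact h.add h'.neg

theorem J.cst (h : O φ l (α 0) f) (e : ∀ i, D i f = 0) : J φ l D m α f := by
  have z : ∀ m α, J φ l D m α (0 : A) := fun m => by
    induction m with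
    | zero => exact fun _ => .zero' .zero
    | succ m ih => exact fun _ => .succ .zero fun i => by rw [D_zero]; exact ih _
  cases m with
  | zero => exact .zero' h
  | succ m => exact .succ h fun i => by rw [e]; exact z _ _

theorem J.zero : J φ l D m α (0 : A) := .cst .zero fun _ => D_zero _

theorem J.sum {κ : Type*} (s : Finset κ) {f : κ → A} (h : ∀ i ∈ s, J φ l D m α (f i)) :
    J φ l D m α (∑ i ∈ s, f i) := Finset.sum_induction f (J φ l D m α) (fun _ _ => J.add) J.zero h

/-- The product rule. -/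
theorem J.mul (h : J φ l D m α f) (h' : J φ l D m β g)
    (e : ∀ i j, i + j ≤ m → (fun p => α i p * β j p) =O[l] γ (i + j)) : J φ l D m γ (f * g) := by
  induction m generalizing f g α β γ with
  | zero => exact .zero' ((h.val.mul h'.val).mono (e 0 0 le_rfl))
  | succ m ih =>
    refine .succ ((h.val.mul h'.val).mono (e 0 0 (Nat.zero_le _))) fun i => ?_
    rw [D_mul, mul_comm g]
    exact (ih (h.le (Nat.le_succ m)) (h'.d i) fun i j k => e i (j + 1) (by omega)).add
      (ih (h.d i) (h'.le (Nat.le_succ m)) fun i j k => by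
        simpa only [add_right_comm i 1 j] using e (i + 1) j (by omega))

theorem J.bmul (h : J φ l D m (fun _ => o1) f) (h' : J φ l D m (fun _ => b) g) :
    J φ l D m (fun _ => b) (f * g) := h.mul h' fun _ _ _ => by simpa using isBigO_refl _ _

theorem J.alg (z : ℂ) : J φ l D m (fun _ => o1) (algebraMap ℂ A z) :=
  .cst (O.alg z) fun _ => D_alg _ z

theorem J.int (z : ℤ) : J φ l D m (fun _ => o1) (z : A) := by
  simpa only [map_intCast] using J.alg (φ := φ) (l := l) (D := D) (m := m) (z : ℂ)

theorem tp_lt {i : ℕ} (h : i < n) : tp n a b i = a := if_pos h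
theorem tp_ge {i : ℕ} (h : n ≤ i) : tp n a b i = b := if_neg (not_lt.2 h)

theorem J.top (h : ∀ k < n, J φ l D k (fun _ => a) f)
    (h' : ∀ w : List ι, w.length = n → O φ l b (P354XF.wd D w f)) : J φ l D n (tp n a b) f :=
  fun w hw => by
    rcases hw.lt_or_eq with k | k
    · rw [tp_lt k]; exact h _ k w le_rfl
    · rw [tp_ge k.ge]; exact h' w k

theorem J.low (h : J φ l D m (tp n a b) f) {k : ℕ} (e : k < n) (e' : k ≤ m) :
    J φ l D k (fun _ => a) f := h.mono e' fun i hi => by rw [tp_lt (by omega)]

theorem J.up (h : J φ l D m (fun _ => a) f) (e : a =O[l] b) : J φ l D m (tp n a b) f :=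
  h.mono le_rfl fun i _ => by
    unfold tp
    split_ifs
    exacts [isBigO_refl _ _, e]

theorem J.dn (h : J φ l D m (tp n a b) f) (e : a =O[l] b) : J φ l D m (fun _ => b) f :=
  h.mono le_rfl fun i _ => by
    unfold tp
    split_ifs
    exacts [e, isBigO_refl _ _]

theorem J.dt (h : J φ l D (m + 1) (tp (n + 1) a b) f) (i : ι) : J φ l D m (tp n a b) (D i f) :=
  (h.d i).mono le_rfl fun i _ => by
    simpa only [tp, Nat.add_lt_add_iff_right] using isBigO_refl _ _

theorem J.st (h : O φ l a f) (h' : ∀ i, J φ l D m (tp n a b) (D i f)) :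
    J φ l D (m + 1) (tp (n + 1) a b) f :=
  .succ (by rwa [tp_lt n.succ_pos]) fun i => (h' i).mono le_rfl fun i _ => by
    simpa only [tp, Nat.add_lt_add_iff_right] using isBigO_refl _ _

/-- Products of elements which are bounded below the order n. -/
theorem J.tmul {a' b' c : P → ℝ} (h : J φ l D n (tp n a b) f) (h' : J φ l D n (tp n a' b') g)
    (hn : 0 < n) (e0 : (fun p => a p * a' p) =O[l] c) (e1 : (fun p => b p * a' p) =O[l] c)
    (e2 : (fun p => a p * b' p) =O[l] c) : J φ l D n (fun _ => c) (f * g) :=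
  h.mul h' fun i j k => by
    rcases (show i < n ∧ j < n ∨ i < n ∧ n ≤ j ∨ n ≤ i ∧ j < n by omega) with k | k | k
    · rwa [tp_lt k.1, tp_lt k.2]
    · rwa [tp_lt k.1, tp_ge k.2]
    · rwa [tp_ge k.1, tp_lt k.2]

variable (φ l D) in
/-- The algebra of the elements which are bounded below the order n and of size u at order n. -/
def topSub (n : ℕ) (u : P → ℝ) (hu : o1 =O[l] u) : Subalgebra ℂ A where
  carrier := {f | J φ l D (n + 1) (tp (n + 1) o1 u) f}
  add_mem' := J.add
  algebraMap_mem' z := (J.alg z).up hu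
  mul_mem' h h' := J.top
    (fun k hk => (J.low h hk hk.le).bmul (J.low h' hk hk.le)) fun w hw =>
      J.tmul h h' n.succ_pos (by simpa using hu) (by simpa using isBigO_refl _ _)
        (by simpa using isBigO_refl _ _) w hw.le

variable (φ l D) in
/-- The algebra of the elements with bounded jets. -/
def bdSub (n : ℕ) : Subalgebra ℂ A where
  carrier := {f | J φ l D n (fun _ => o1) f}
  add_mem' h h' := J.add (D := D) (α := fun _ => o1) h h'
  algebraMap_mem' z := J.alg z
  mul_mem' h h' := J.bmul h h'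

/-- A finite family whose derivatives are polynomials in the family and in bounded elements. -/
theorem J.clo {κ : Type*} {x : κ → A} {S : Set A} (h0 : ∀ k, O φ l o1 (x k))
    (hS : ∀ f ∈ S, J φ l D m (fun _ => o1) f)
    (hd : ∀ k i, D i (x k) ∈ Algebra.adjoin ℂ (S ∪ Set.range x)) (k : κ) :
    J φ l D (m + 1) (fun _ => o1) (x k) := by
  suffices H : ∀ n ≤ m + 1, ∀ k, J φ l D n (fun _ => o1) (x k) from H _ le_rfl k
  intro n
  induction n with
  | zero => exact fun _ k => .zero' (h0 k)
  | succ n ih =>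
    refine fun hn k => .succ (h0 k) fun i => ?_
    refine (Algebra.adjoin_le (S := bdSub φ l D n) ?_ (hd k i) :)
    rintro f (h | ⟨k, rfl⟩)
    exacts [(hS f h).le (by omega), ih (by omega) k]

/-- Change of letters on a class of elements. -/
theorem J.chg {κ : Type*} [Fintype ι] {E : κ → Der A} {u : κ → ι → A} {C : A → Prop}
    (hC : ∀ k f, C f → C (E k f) ∧ E k f = ∑ i, u k i * D i f)
    (hu : ∀ k i, J φ l D m (fun _ => o1) (u k i)) (c : C f) (e : n ≤ m + 1)
    (h : J φ l D n (fun _ => a) f) : J φ l E n (fun _ => a) f := by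
  induction n generalizing f with
  | zero => exact .zero' h.val
  | succ n ih =>
    refine .succ h.val fun k => ih (hC k f c).1 (by omega) ?_
    rw [(hC k f c).2]
    exact .sum _ fun i _ => ((hu k i).le (by omega)).bmul (h.d i)

/-- Transport along a homomorphism. -/
theorem J.hom {A' P' : Type*} [CommRing A'] [Algebra ℂ A'] {φ' : P' → A' →ₐ[ℂ] ℂ} {l' : Filter P'}
    {D' : ι → Der A'} {ψ : A →ₐ[ℂ] A'} {π : P' → P} (e1 : ∀ p f, φ' p (ψ f) = φ (π p) f)
    (e2 : ∀ i f, ψ (D i f) = D' i (ψ f)) :
    J φ' l' D' m (fun i => α i ∘ π) (ψ f) ↔ J φ (map π l') D m α f := by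
  have e : ∀ w, P354XF.wd D' w (ψ f) = ψ (P354XF.wd D w f) := fun w => by
    induction w with
    | nil => rfl
    | cons i w ih => rw [P354XF.wd, P354XF.wd, ih, e2]
  simp only [J, O, e, e1, isBigO_map]
  rfl

theorem J.sup {l' : Filter P} (h : J φ l D m α f) (h' : J φ l' D m α f) : J φ (l ⊔ l') D m α f :=
  fun w hw => IsBigO.sup (h w hw) (h' w hw)

theorem J.fil {l' : Filter P} (h : J φ l D m α f) (e : l' ≤ l) : J φ l' D m α f :=
  fun w hw => IsBigO.mono (h w hw) e

/-- The error of the commutation of X with a word. -/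
def br (D : ι → Der A) (X : A → A) (c : ι → A) (w : List ι) (f : A) : A :=
  X (wd D w f) - wd D w (X f) - (w.map c).sum * wd D w f

/-- The commutation lemma. -/
theorem J.br [Fintype ι] {X : A → A} {c : ι → A} {u : ι → ι → A} {v : ι → ℤ → A}
    {Wt : ℤ → A → Prop} {sh : ι → ℤ} (hc : ∀ i j, D i (c j) = 0)
    (hW : ∀ i s f, Wt s f → Wt (s + sh i) (D i f))
    (hX : ∀ i s f, Wt s f → X (D i f) = D i (X f) + c i * D i f + ∑ j, u i j * D j f + v i s * f)
    {α' : ℕ → P → ℝ} (hu : ∀ i j, ∀ k < n, J φ l D k α (u i j))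
    (hv : ∀ i s, ∀ k < n, J φ l D k α' (v i s)) {s : ℤ} (hf : Wt s f) (h : J φ l D n β f)
    (e : ∀ i j, i + j ≤ n → i < n → (fun p => α i p * β j p) =O[l] a)
    (e' : ∀ i j, i + j < n → (fun p => α' i p * β j p) =O[l] a) (w : List ι) :
    (∃ s, Wt s (P354XF.wd D w f)) ∧
      ∀ k, k + w.length ≤ n → J φ l D k (fun _ => a) (P354HI.br D X c w f) := by
  induction w with
  | nil => exact ⟨⟨s, hf⟩, fun k _ => by simpa [P354HI.br, P354XF.wd] using J.zero⟩
  | cons i w ih =>
    obtain ⟨⟨s, hs⟩, ih⟩ := ih
    refine ⟨⟨_, hW i s _ hs⟩, fun k hk => ?_⟩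
    rw [List.length_cons] at hk
    have z : D i (w.map c).sum = 0 := by
      rw [map_list_sum]
      exact List.sum_eq_zero (by simp +contextual [hc])
    have e0 : P354HI.br D X c (i :: w) f = D i (P354HI.br D X c w f) +
        ∑ j, u i j * D j (P354XF.wd D w f) + v i s * P354XF.wd D w f := by
      simp only [P354HI.br, P354XF.wd, hX i s _ hs, D_sub, D_mul, z, List.map_cons, List.sum_cons]
      ring
    have k1 := J.wd w (h.le (show k + 1 + w.length ≤ n by omega))
    rw [e0]
    exact (((ih (k + 1) (by omega)).d i).add (.sum _ fun j _ => (hu i j k (by omega)).mul (k1.d j)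
      fun i j _ => e i _ (by omega) (by omega))).add
      ((hv i s k (by omega)).mul (k1.le (Nat.le_succ k)) fun i j _ => e' i _ (by omega))

/-- The error of the commutation of a factor with a word. -/
theorem J.lb {x : A} (hx : ∀ i, ∀ k < n, J φ l D k α (D i x)) (h : ∀ k < n, J φ l D k β f)
    (e : ∀ i j, i + j < n → (fun p => α i p * β j p) =O[l] a) (w : List ι) :
    ∀ k, k + w.length ≤ n →
      J φ l D k (fun _ => a) (P354XF.wd D w (x * f) - x * P354XF.wd D w f) := by
  induction w with
  | nil => exact fun k _ => by simpa [P354XF.wd] using J.zero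
  | cons i w ih =>
    intro k hk
    rw [List.length_cons] at hk
    have e0 : P354XF.wd D (i :: w) (x * f) - x * P354XF.wd D (i :: w) f =
        D i (P354XF.wd D w (x * f) - x * P354XF.wd D w f) + D i x * P354XF.wd D w f := by
      simp only [P354XF.wd, D_sub, D_mul]
      ring
    rw [e0]
    exact ((ih (k + 1) (by omega)).d i).add ((hx i k (by omega)).mul
      (J.wd w (h (k + w.length) (by omega))) fun i j _ => e i _ (by omega))

end Vale.Agent.P354HI
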