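import Vale.Agent.P354XF.Lev

/-!
The almost Killing field of a transverse GHP algebra: definitions and the statement KILL.
-/

namespace Vale.Agent.P354HI

open Vale.Agent.P354XF (Tv Gen Gn M fr gam)
open Vale.Agent.P354XG (GHP)

variable {A : Type*} [CommRing A] [Algebra ℂ A]

/-- The generators of T, and a cube root zi of P2. -/
def gz (T : Tv A) (zi : A) : Gen (Bool × Option Gn) A where
  x p := p.2.elim (cond p.1 (T.G.c zi) zi) fun x => T.gen.x (p.1, x)
  lev p := p.2.elim 0 Gn.lev
  sm p := p.2.elim False Gn.sm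
  cl _ := 0

/-- Twice the components of the field in the frame fr G; ze is the inverse of zi. -/
def xi (G : GHP A) (ze zi : A) : Fin 6 → A :=
  ![-(2 * G.tp ze), 2 * G.th ze, 2 * G.ep ze, -(2 * G.et ze), -zi ^ 2,
    2 * (ze * (G.tp G.rh - G.ta * G.ta' - G.rh * G.rh' + G.ta * G.c G.ta)) + zi ^ 2]

/-- The components of the commutator of the field with components x with the letter b. -/
def kap (G : GHP A) (x : Fin 6 → A) (b e : Fin 6) : A := ∑ a, x a * gam G a b e - fr G b (x e)

/-- KILL: the commutators are small, with a universal loss. -/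
def KILL : Prop := ∃ n, ∀ (A : Type) [CommRing A] [Algebra ℂ A] (T : Tv A) (ze zi : A),
  ze * zi = 1 → zi ^ 3 = T.G.P2 → (∀ b e, M (gz T zi) n n 1 0 (kap T.G (xi T.G ze zi) b e)) ∧
    M (gz T zi) n n 1 0 (∑ a, xi T.G ze zi a * fr T.G a (T.G.c ze))

end Vale.Agent.P354HI
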