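import Vale.Agent.P354HI.Core

/-!
Change of the letters, and the commutators of the almost Killing field.
-/

open Filter Asymptotics

namespace Vale.Agent.P354HI

open Vale.Agent.P354XF (wd Tv fr gam bar M)
open Vale.Agent.P354XG (Der GHP D_mul D_zero D_add D_sub D_neg D_alg D_one)

variable {A : Type} {P : Type*} {ι : Type} [CommRing A] [Algebra ℂ A] {φ : P → A →ₐ[ℂ] ℂ}
  {l : Filter P} {a η : P → ℝ} {f g : A} {n m N : ℕ} [Fintype ι] {E : ι → Der A}

/-- The field with the components x. -/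
noncomputable def vf (E : ι → Der A) (x : ι → A) : Der A := ∑ e, x e • E e

theorem vf_ap (x : ι → A) (f : A) : vf E x f = ∑ e, x e * E e f := by
  rw [vf, ← Derivation.coeFnAddMonoidHom_apply, map_sum, Finset.sum_apply]
  rfl

/-- New letters with bounded coefficients. -/
structure Lt (φ : P → A →ₐ[ℂ] ℂ) (l : Filter P) (E : ι → Der A) (N : ℕ) (U V : ι → ι → A) :
    Prop where
  inv : ∀ e f, E e f = ∑ i, V e i * vf E (U i) f
  bU : ∀ i e, J φ l E N (fun _ => o1) (U i e)
  bV : ∀ i e, J φ l E N (fun _ => o1) (V i e)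

namespace Lt
variable {U V : ι → ι → A} (h : Lt φ l E N U V)
include h

theorem fw (e : J φ l E n (fun _ => a) f) (hn : n ≤ N + 1) :
    J φ l (fun i => vf E (U i)) n (fun _ => a) f :=
  J.chg (C := fun _ => True) (fun _ _ _ => ⟨trivial, vf_ap _ _⟩) h.bU trivial hn e

theorem bw (e : J φ l (fun i => vf E (U i)) n (fun _ => a) f) (hn : n ≤ N + 1) :
    J φ l E n (fun _ => a) f :=
  J.chg (C := fun _ => True) (fun _ _ _ => ⟨trivial, h.inv _ _⟩)
    (fun i e => h.fw (h.bV i e) N.le_succ) trivial hn e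

/-- The commutators with the new letters. -/
theorem cm {X : Der A} {κ : ι → ι → A} (e : Cm E X κ) (hκ : ∀ i j, J φ l E N (fun _ => a) (κ i j))
    (hU : ∀ i j, J φ l E N (fun _ => a) (X (U i j))) :
    ∃ κ', Cm (fun i => vf E (U i)) X κ' ∧
      ∀ i j, J φ l (fun i => vf E (U i)) N (fun _ => a) (κ' i j) := by
  refine ⟨fun i j => ∑ e, V e j * (X (U i e) + ∑ e', U i e' * κ e' e), fun i f => ?_,
    fun i j => h.fw (.sum _ fun e _ => (h.bV e j).bmul ((hU i e).add (.sum _ fun e' _ =>
      (h.bU i e').bmul (hκ e' e)))) N.le_succ⟩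
  have k : ∀ s : ι → A, ∑ j, (∑ e, V e j * s e) * vf E (U j) f = ∑ e, s e * E e f := fun s => by
    simp only [Finset.sum_mul]
    rw [Finset.sum_comm]
    exact Finset.sum_congr rfl fun e _ => by
      rw [h.inv e f, Finset.mul_sum]; exact Finset.sum_congr rfl fun _ _ => by ring
  rw [k, vf_ap, vf_ap, map_sum]
  simp only [D_mul, e _ f, mul_add, add_mul, Finset.sum_add_distrib, Finset.mul_sum,
    Finset.sum_mul, mul_assoc, mul_comm (E _ f)]
  rw [Finset.sum_comm (f := fun e e' => U i e' * (κ e' e * E e f))]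
  ring

end Lt

variable (T : Tv A)

theorem cm_vf (x : Fin 6 → A) : Cm (fr T.G) (vf (fr T.G) x) (kap T.G x) := fun b f => by
  simp only [vf_ap, map_sum, D_mul, T.comm _ b f, kap, mul_add, sub_mul, Finset.sum_add_distrib,
    Finset.sum_sub_distrib, Finset.mul_sum, Finset.sum_mul, mul_assoc, mul_comm (fr T.G _ f)]
  rw [Finset.sum_comm (f := fun a e => x a * (gam T.G a b e * fr T.G e f))]
  ring

theorem bar_bar (b : Fin 6) : bar (bar b) = b := by fin_cases b <;> rfl

omit [Algebra ℂ A] in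
theorem sum_bar (s : Fin 6 → A) : ∑ b, s (bar b) = ∑ b, s b := by
  simp only [Fin.sum_univ_six, bar, Matrix.cons_val]; ring

theorem c_fr (b : Fin 6) (f : A) : T.G.c (fr T.G b f) = fr T.G (bar b) (T.G.c f) := by
  rw [T.fr_c, bar_bar]

theorem c_vf (x : Fin 6 → A) (f : A) :
    T.G.c (vf (fr T.G) x f) = vf (fr T.G) (fun b => T.G.c (x (bar b))) (T.G.c f) := by
  simp only [vf_ap, map_sum, map_mul, c_fr]
  rw [← sum_bar]
  simp only [bar_bar]

variable {T}

theorem J.cj (hc : Cj φ T.G.c) (h : J φ l (fr T.G) n (fun _ => a) f) :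
    J φ l (fr T.G) n (fun _ => a) (T.G.c f) := by
  induction n generalizing f with
  | zero => exact .zero' (h.val.cj hc)
  | succ n ih => exact .succ (h.val.cj hc) fun b => by rw [T.fr_c]; exact ih (h.d _)

/-- The real part of a field with small commutators. -/
theorem cm_re (hc : Cj φ T.G.c) {x : Fin 6 → A} (k : ℝ)
    (h : ∀ b e, J φ l (fr T.G) n (fun _ => a) (kap T.G x b e)) :
    ∃ κ, Cm (fr T.G) (vf (fr T.G) fun b => algebraMap ℂ A k * (x b + T.G.c (x (bar b)))) κ ∧
      ∀ b e, J φ l (fr T.G) n (fun _ => a) (κ b e) := by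
  refine ⟨fun b e => algebraMap ℂ A k * (kap T.G x b e + T.G.c (kap T.G x (bar b) (bar e))),
    fun b f => ?_, fun b e => (J.alg _).bmul ((h b e).add ((h _ _).cj hc))⟩
  have e1 := cm_vf T x b f
  have e2 := congrArg T.G.c (cm_vf T x (bar b) (T.G.c f))
  rw [map_add, c_vf, c_fr, c_fr, c_vf, map_sum, ← sum_bar] at e2
  simp only [map_mul, c_fr, bar_bar, T.is.cc] at e2
  simp only [vf_ap, D_mul, D_alg, D_add, Fin.sum_univ_six] at e1 e2 ⊢
  linear_combination algebraMap ℂ A k * (e1 + e2)

omit [Fintype ι] in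
theorem J.inv {u v : A} (e : u * v = 1) (h : J φ l E (n + 1) (fun _ => o1) u) (h0 : O φ l o1 v) :
    J φ l E (n + 1) (fun _ => o1) v :=
  J.clo (κ := Unit) (x := fun _ => v) (S := Set.range fun i => E i u) (fun _ => h0)
    (by rintro _ ⟨i, rfl⟩; exact h.d i) (fun _ i => by
      have := congrArg (E i) e
      rw [D_mul, D_one] at this
      rw [show E i v = -(v * v * E i u) by linear_combination v * this - E i v * e]
      have hv : v ∈ Algebra.adjoin ℂ ((Set.range fun i => E i u) ∪ Set.range fun _ : Unit => v) :=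
        Algebra.subset_adjoin (.inr ⟨(), rfl⟩)
      exact neg_mem (mul_mem (mul_mem hv hv) (Algebra.subset_adjoin (.inl ⟨i, rfl⟩)))) ()

theorem D_inv (X : Der A) {u v : A} (e : u * v = 1) : X v = -(v * v * X u) := by
  have := congrArg X e
  rw [D_mul, D_one] at this
  linear_combination v * this - X v * e

end Vale.Agent.P354HI
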