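import Vale.Agent.P354HI.Ins
import Vale.Agent.P354YS.Conv
import Vale.Agent.P354BK.Lines

/-!
HIGH.
-/

open scoped ContDiff
open Set Filter Topology Complex Asymptotics

noncomputable section

namespace Vale.Agent.P354HI

open Vale.Agent.P354XG Vale.Agent.P354XD Vale.Agent.P354XR Vale.Agent.P354YA
open Vale.Agent.P354XF (fr)
open Vale.Agent.P354XE (Tw gin rd)
open Vale.Agent.P354YT (Pm)
open Vale.Agent.P354Z (f4)
open Vale.Agent.P354CS (ku pos vac link vl_ext vl_vk vl_zero nb_v lr_unit)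
open Vale.Agent.P354BO (hom2)
open Vale.Agent.P354NP (kcl)
open Vale.Agent.P354HK (kill)
open Vale.Agent.P354BK (lines)

variable {c : Pm} {K K' : Tw → Set E6} {κ s e C C' : ℝ} {k L m n N : ℕ} {U W : Set ℝ}
  {F F' : Filter (Tw × E6)}

theorem J.cov {A ι : Type} [CommRing A] [Algebra ℂ A] {φ : Pz K → A →ₐ[ℂ] ℂ} {D : ι → Der A}
    {α : ℕ → Pz K → ℝ} {f : A} {S T : Set (Tw × E6)}
    (h : J φ (comap Subtype.val (F ⊓ 𝓟 S)) D n α f) (h' : J φ (comap Subtype.val (F ⊓ 𝓟 T)) D n α f)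
    (e : ∀ᶠ p in F', p ∈ S ∨ p ∈ T) (e' : F' ≤ F) : J φ (comap Subtype.val F') D n α f := by
  refine (h.sup h').fil ?_
  rw [← comap_sup, ← inf_sup_left, sup_principal]
  exact comap_mono (le_inf e' (le_principal_iff.2 e))

theorem ev_pr {S : Set (Tw × E6)} : ∀ᶠ p in F ⊓ 𝓟 S, p ∈ S := mem_inf_of_right (mem_principal_self S)

/-- The zones. -/
def UT : Set ℝ := {d | |d| < 1 / 4}
abbrev KT (c : Pm) (κ : ℝ) : Tw → Set E6 := Kz c κ link.choose UT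
abbrev KO (c : Pm) (κ : ℝ) : Tw → Set E6 := Kw c κ univ

theorem lr_li (o : c.Ok) (u : U ⊆ {d | |d| < 2}) :
    lr (nb ⊤ (Kz c κ e U)) c.M c.a id * li _ c.M c.a id = 1 :=
  Ring.mul_inverse_cancel _ (lr_unit o kz_gd u)

theorem li_bd (o : c.Ok) (u : U ⊆ {d | |d| < 2}) {e' : ℝ} (b : ∀ᶠ p in F, Lw c n C e' p) :
    li _ c.M c.a id ∈ bdSub (ev (Kz c κ e U)) (comap Subtype.val F) (fr (dz o kz_gw).T.G) 0 :=
  J.zero' (α := fun _ => o1) (O.inv (lr_li o u) (c := C) ((cm_ev b).mono fun p k =>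
    (congrArg (‖·⁻¹‖) (kz_gw.val ((hom2 _).1 (.inl 2)) p)).trans_le
      (k.2.2.2.2.1 (u (ev_at kz_gd p.2).2.2))))

variable (o : Ok2 c) (k1 : c.k = 1) (hs : 1 < s)
include o k1

theorem kc0 (h : Gw c K) (hF : F ≤ l0 c κ k L m s W) :
    Kc (ev K) (comap Subtype.val F) (hp _) (KS _ 0) :=
  (kcl c o k1 K 0 le_rfl (pos h.k1)).1 _ c.r1 c.Rs o.1.r10 (cm_ev (l0_r.filter_mono hF))

include hs

/-- The tube. -/
theorem tube (hL : kill.choose + N + 4 ≤ L) (b : ∀ e > 0, ∀ᶠ p in l0 c κ k L m s WT, Lw c 1 C e p)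
    (b' : ∀ᶠ p in l0 c κ k L m s WT, c.psi (pj p.2) < 0 → Lw c N C' e p) (i d : Fin 4) :
    J (ev (KO c κ)) (comap Subtype.val (l0 c κ k L m s WT)) (f4 (gT _ c.M c.a id)) N (fun _ => o1)
      (fv (fT _ c.M c.a id) i d) := by
  have h : Gw c (KT c κ) := kz_gw
  have u : UT ⊆ {d | |d| < 2} := fun d (t : |d| < 1 / 4) => show |d| < 2 by linarith
  have R1 : 0 ≤ c.R1 - 1 := by linarith [o.2, (abs_nonneg _).trans_lt o.1.sub]
  have d4 : ∀ᶠ p in nb ⊤ (KT c κ), |dd c (pj p.2)| < 1 / 4 := kz_gd.mono fun _ k => k.2.2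
  obtain ⟨c1, c2, c3, c4, c5, c6⟩ := kcl c o k1 (KT c κ) _ R1 ((d4.and (pos h.k1)).mono fun p k => by
    have := (abs_lt.1 k.1).1
    rw [dd, rd_pj k.2.1 k.2.2] at this
    exact ⟨by linarith, k.2.2⟩)
  have T := c6 d4
  have d8 : ∀ᶠ p in l0 c κ k L m s WT, |dd c (pj p.2)| ≤ 1 / 8 := l0_dd
  have mem := mem_kz o.1 le_rfl (b _ link.choose_spec.1) (U := UT)
    (isOpen_lt continuous_abs continuous_const) u (d8.mono fun _ t => t.trans_lt (by norm_num))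
  have z := bz o.1 h le_rfl (by linarith) (b 1 one_pos) (c1 _ (c.R1 - 1 / 8) (c.R1 + 1 / 8)
    (by linarith) ((cm_ev d8).mono fun p t => by
      have k := ev_at (pos h.k1) p.2
      rw [dd, rd_pj k.1 k.2, abs_le] at t
      exact ⟨by linarith [t.1], by linarith [t.2]⟩)) fun d => (c2 d).1
  have X1 := (link.choose_spec.2 c o κ _ _ id UT kz_gd).1
    fun d (t : |d| < 1 / 4) => show |d| < 5 / 4 by linarith
  rw [T.ca, T.cl, T.cn, one_smul] at X1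
  have kl := kill.choose_spec _ (dz o.1 h).T _ _ (dz o.1 h).e1 (dz o.1 h).e3
  have e1 : ∀ i, f4 (gT _ c.M c.a id) i (rt _ c.M c.a id - kf (nb ⊤ (KT c κ)) (dd c)) =
      f4 (gT _ c.M c.a id) i (rt _ c.M c.a id - (hp _).z 1) := fun i => by
    simp only [c4, D_sub, D_alg, sub_zero]
  have e2 : ∀ i, f4 (gT _ c.M c.a id) i (kf (nb ⊤ (KT c κ)) (dd c)) =
      f4 (gT _ c.M c.a id) i ((hp _).z 1) := fun i => by rw [c4, D_sub, D_alg, sub_zero]
  obtain ⟨ε, ε0, ε1, ε2⟩ := ex_eps (φ := ev (KT c κ)) (l := comap Subtype.val (l0 c κ k L m s WT))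
    (x := fun i => P354BO.sq c.M c.a _ id (.inr i)) fun i e he => (cm_ev (b e he)).mono fun p k => by
      rw [h.val ((hom2 _).1 _)]
      rcases i with i | i
      exacts [(k.2.2.2.2.2 i).1, (k.2.2.2.2.2 i).2 i.2]
  have w0 : ∀ p : Pz (KT c κ), 0 ≤ (1 + |p.1.2.1|) ^ (-s) := fun _ => by positivity
  refine ((dh kz_sub o.1 kw_gw h).ini (ev_inc kz_sub) (z.tube hL kl.1 kl.2 (lr_li o.1 u)
    (li_bd o.1 u (b 1 one_pos) [] le_rfl) (c3 _ (by simp)) (cj_kf (P354CS.rs_kf (pos h.k1)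
      fun _ r => (P354XV.co_cd r).2.2.2).2) T.mem X1 T.X ε0 ε1 ((e1 0).symm ▸ ε2 (.inl 0))
    ((e1 1).symm ▸ ε2 (.inl 1)) ((e2 2).symm ▸ ε2 (.inr ⟨2, le_rfl⟩))
    ((e2 3).symm ▸ ε2 (.inr ⟨3, by decide⟩)) ?_ ?_ ?_
    (fun X hX => (lines c o k1 κ k L m s hs _ (pos h.k1) X hX).1 mem) (comap_mono inf_le_left)
    (fun i d => h.jd (eventually_inf_principal.2 b') (.inl (i, d))) i d)).fil
    (le_inc kz_sub le_rfl mem)
  · exact isBigO_of_le _ fun p => by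
      rw [c5, norm_real]
      exact (le_add_of_nonneg_left (w0 p)).trans (le_abs_self _)
  · refine .of_bound' ((cm_ev (l0_eta one_pos)).mono fun p t => ?_)
    rw [Real.norm_of_nonneg (Real.sqrt_nonneg _)]
    exact t.trans ((one_mul _).trans_le ((le_add_of_nonneg_right (abs_nonneg _)).trans
      (le_abs_self _)))
  · refine .of_bound 2 ((cm_ev d8).mono fun p t => ?_)
    rw [Real.norm_of_nonneg (add_nonneg (w0 p) (abs_nonneg _)), norm_one]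
    linarith [pw_le (show 0 ≤ s by linarith) p.1.2.1]

/-- The gauge in a zone. -/
theorem zone (h : Gw c K') (z : ∀ g, K' g ⊆ KO c κ g) (hF : F ≤ l0 c κ k L m s W)
    (b : ∀ᶠ p in l0 c κ k L m s W, Lw c 1 C e p) (mem : ∀ᶠ p in F, p.2 ∈ K' p.1) (hL : n + 5 < L)
    (G : (dz o.1 h).Ga (bdSub (ev K') (comap Subtype.val F) (fr (dz o.1 h).T.G) 0) (KS _ 0))
    {u : Pz (KO c κ) → ℝ} {hu : o1 =O[comap Subtype.val (l0 c κ k L m s W)] u}
    (hx : ∀ i, (dz o.1 kw_gw).xo i ∈ topSub (ev _) _ (dz o.1 kw_gw).Do (n + 1) u hu)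
    (hf : ∀ f ∈ KS _ 0, f ∈ topSub (ev _) _ (dz o.1 kw_gw).Do (n + 1) u hu) (i : Fin 6) :
    J (ev _) (comap Subtype.val F) (dz o.1 kw_gw).Do (n + 2) (tp (n + 2) o1 u)
      ((dz o.1 kw_gw).Xo ((dz o.1 kw_gw).xo i)) :=
  ((dh z o.1 kw_gw h).gauge (ev_inc z) (bz o.1 h hF (by linarith) (hF b) (kc0 o k1 h hF)
    fun d => ((kcl c o k1 _ 0 le_rfl (pos h.k1)).2.1 d).1) hL (inc_le z hF)
    (ks_inc z (pos kw_gw.k1)) G hx hf i).fil (le_inc z le_rfl mem)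

omit k1 hs in
theorem geo3 : nb0 (sG (nb ⊤ (Kw c κ {d | 7 / 4 < |d|})) id) (vk _ c.X) (vk _ c.X) = 0 := by
  have q := (kw_gw (c := c) (κ := κ) (U := {d | 7 / 4 < |d|})).k1
  refine vl_ext ?_
  filter_upwards [kw_ev, pos q, nb_v (pos q).off (vac q) (vk _ c.X) (vk _ c.X),
    Loc.ev _ (vl_vk o.1 (pos q)), vl_zero] with p h a b d z
  refine (b _ _ (P354RC.at_df (o.1.X_cd (by rw [rd_pj a.1 a.2]; exact a.1))) d.self_of_nhds
    d).trans (Eq.trans ?_ z.symm)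
  exact (congrArg _ (h.2.1.geo h.2.2.le)).trans (funext fun a => by simp [P354CS.kv])

/-- The gauge. -/
theorem gau (b : ∀ᶠ p in l0 c κ k L m s W, Lw c 1 C link.choose p) (hL : n + 5 < L)
    {u : Pz (KO c κ) → ℝ} {hu : o1 =O[comap Subtype.val (l0 c κ k L m s W)] u}
    (hx : ∀ i, (dz o.1 kw_gw).xo i ∈ topSub (ev _) _ (dz o.1 kw_gw).Do (n + 1) u hu)
    (hf : ∀ f ∈ KS _ 0, f ∈ topSub (ev _) _ (dz o.1 kw_gw).Do (n + 1) u hu) (i : Fin 6) :
    J (ev _) (comap Subtype.val (l0 c κ k L m s W)) (dz o.1 kw_gw).Do (n + 2) (tp (n + 2) o1 u)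
      ((dz o.1 kw_gw).Xo ((dz o.1 kw_gw).xo i)) := by
  have b1 : ∀ S, ∀ᶠ p in l0 c κ k L m s W ⊓ 𝓟 S, Lw c 1 C link.choose p := fun _ =>
    b.filter_mono inf_le_left
  have ks := fun U => (kcl c o k1 (Kz c κ link.choose U) 0 le_rfl (pos kz_gw.k1)).2.2.1
  have u1 : {d : ℝ | |d| < 5 / 4} ⊆ {d | |d| < 2} := fun d (t : |d| < 5 / 4) =>
    show |d| < 2 by linarith
  have u2 : {d : ℝ | 1 < |d| ∧ |d| < 2} ⊆ {d | |d| < 2} := fun d t => t.2
  have z1 := zone o k1 hs (F := _ ⊓ 𝓟 {p | dd c (pj p.2) ∈ {d : ℝ | |d| < 5 / 4}}) kz_gw kz_sub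
    inf_le_left b (mem_kz o.1 inf_le_left (b1 _) (isOpen_lt continuous_abs continuous_const) u1 ev_pr)
    hL (.inl ⟨_, li_bd o.1 u1 (b1 _), _, ks _ (ca c) (by simp), _, ks _ (cl c) (by simp),
      _, ks _ (cn c) (by simp), lr_li o.1 u1,
      (link.choose_spec.2 c o κ _ _ id _ kz_gd).1 subset_rfl⟩) hx hf i
  have z2 := zone o k1 hs (F := _ ⊓ 𝓟 {p | dd c (pj p.2) ∈ {d : ℝ | 1 < |d| ∧ |d| < 2}}) kz_gw kz_sub
    inf_le_left b (mem_kz o.1 inf_le_left (b1 _) ((isOpen_lt continuous_const continuous_abs).inter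
      (isOpen_lt continuous_abs continuous_const)) u2 ev_pr)
    hL (.inr (.inl ⟨_, li_bd o.1 u2 (b1 _), _, ks _ (fun p => cp (dd c p)) (by simp),
      _, ks _ (fun p => cp (-dd c p)) (by simp), lr_li o.1 u2,
      (link.choose_spec.2 c o κ _ _ id _ kz_gd).2.1 subset_rfl⟩)) hx hf i
  have z3 := zone o k1 hs (F := _ ⊓ 𝓟 {p | dd c (pj p.2) ∈ {d : ℝ | 7 / 4 < |d|}}) kw_gw kw_sub
    inf_le_left b (mem_kw o.1 inf_le_left (b1 _) (isOpen_lt continuous_const continuous_abs) ev_pr)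
    hL (.inr (.inr (geo3 o))) hx hf i
  exact J.cov z1 (J.cov z2 z3 (F' := _ ⊓ 𝓟 {p | 1 < |dd c (pj p.2)|}) (ev_pr.mono fun p t =>
      (lt_or_ge |dd c (pj p.2)| 2).imp (fun t' => ⟨t, t'⟩)
        fun t' => show 7 / 4 < |dd c (pj p.2)| by linarith) inf_le_left)
    (.of_forall fun p => (lt_or_ge |dd c (pj p.2)| (5 / 4)).imp (fun t => t)
      fun t => show 1 < |dd c (pj p.2)| by linarith) le_rfl

/-- Outside of the tube. -/
theorem off (hL : kill.choose + N + 5 ≤ L)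
    (b : ∀ W, ∀ e > 0, ∀ᶠ p in l0 c κ k L m s W, Lw c 1 C e p)
    (b' : ∀ W, ∀ᶠ p in l0 c κ k L m s W, c.psi (pj p.2) < 0 → Lw c (N + 1) C' e p) (i d : Fin 4) :
    J (ev (KO c κ)) (comap Subtype.val (l0 c κ k L m s WO)) (f4 (gT _ c.M c.a id)) N (fun _ => o1)
      (fv (fT _ c.M c.a id) i d) := by
  have h : Gw c (KO c κ) := kw_gw
  have b1 := b WO _ link.choose_spec.1
  have z := bz o.1 h le_rfl (by linarith) b1 (kc0 o k1 h le_rfl)
    fun d => ((kcl c o k1 _ 0 le_rfl (pos h.k1)).2.1 d).1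
  have ini : ∀ i d, J (ev (KO c κ)) (comap Subtype.val (l0 c κ k L m s WO ⊓
      𝓟 {p | c.psi (pj p.2) < 0 ∨ dd c (pj p.2) ∈ WT})) (f4 (gT _ c.M c.a id)) (N + 1) (fun _ => o1)
      (fv (fT _ c.M c.a id) i d) := fun i d =>
    J.cov (h.jd (eventually_inf_principal.2 (b' WO)) (.inl (i, d)))
      ((tube o k1 hs (by omega) (b WT) (b' WT) i d).fil (comap_mono (l0_le inf_le_left ev_pr)))
      ev_pr inf_le_left
  exact z.off (by omega) (comap_mono inf_le_left)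
    (fun n hn u hu hx hf i => gau o k1 hs b1 (by omega) hx hf i)
    (fun X hX => (lines c o k1 κ k L m s hs _ (pos h.k1) X hX).2
      (mem_kw o.1 le_rfl b1 isOpen_univ (.of_forall fun _ => trivial))) ini
    (P354YS.gj _ _ _ _ _ _ _ _ _ (dz o.1 h).sis (dz o.1 h).wn.nl ini
      fun b d => IsBigO.mono (z.g b d).val (comap_mono inf_le_left)) i d

omit o k1 hs in
/-- **HIGH.** -/
theorem high : HIGH := by
  intro M a h
  obtain ⟨k, H1⟩ := low h 1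
  refine ⟨k, fun N => ⟨kill.choose + N + 5, fun c hM ha o k1 κ s hs => ?_⟩⟩
  obtain ⟨m, H2⟩ := low h (N + 1)
  obtain ⟨C, H1⟩ := H1 c hM ha o k1
  obtain ⟨C', H2⟩ := H2 c hM ha o k1
  have b := fun W e he => (H1 κ k (kill.choose + N + 5) m s W e he).1 le_rfl
  have b' := fun W => (H2 κ k (kill.choose + N + 5) m s W 1 one_pos).2 le_rfl
  have g : Gw c (KO c κ) := kw_gw
  obtain ⟨B, hB⟩ := P354YS.conv c.M c.a (KO c κ) _ N (ku g.k1) (fun i d => J.cov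
    (((tube o k1 hs le_rfl (b WT) (b' WT) i d).le N.le_succ).fil
      (comap_mono (l0_le inf_le_left ev_pr)))
    ((off o k1 hs le_rfl b b' i d).fil (comap_mono (l0_le inf_le_left ev_pr)))
    (.of_forall fun p => le_total |dd c (pj p.2)| (1 / 8)) le_rfl)
    fun i d => (g.jd (b univ 1 one_pos) (.inr (.inl (i, d)))).val
  obtain ⟨e, he, H⟩ := l0_ex (Q := fun p => P354XE.Bd N p.1 (pj p.2) B) ((eventually_comap.1 hB).mp
    ((mem_kw o.1 le_rfl (b univ 1 one_pos) isOpen_univ (.of_forall fun _ => trivial)).mono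
      fun p t u => u ⟨p, t⟩ rfl))
  exact ⟨m, e, he, B, H⟩

end Vale.Agent.P354HI
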