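import Vale.Agent.P354HI.Dat

/-!
The gauge in the frame, and the estimate outside of the tube.
-/

open Filter Asymptotics

noncomputable section

namespace Vale.Agent.P354HI

open Vale.Agent.P354XF (wd Tv fr gam bar M)
open Vale.Agent.P354XG Vale.Agent.P354XD
open Vale.Agent.P354Z (f4)
open Vale.Agent.P354HK (of_gen conj_gz m_zi m_ze up_gz)

variable {A : Type} {P : Type} [CommRing A] [Algebra ℂ A] {φ : P → A →ₐ[ℂ] ℂ}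
  {l l0 : Filter P} {η : P → ℝ} {f : A} {n N L : ℕ} {C : Set A}

/-- The letters outside of the tube. -/
def Uo (u v : A) : Fin 6 → Fin 6 → A :=
  ![![u, 0, 0, 0, 0, 0], ![0, v, 0, 0, 0, 0], ![0, 0, 1, 0, 0, 0], ![0, 0, 0, 1, 0, 0],
    ![0, 0, 0, 0, 1, 0], ![0, 0, 0, 0, 0, 1]]

namespace Dt
variable (δ : Dt A)

/-- The components of the field in the frame and in the letters. -/
def xr : Fin 6 → A :=
  ![-δ.S.dot δ.Ξ δ.F.n, -δ.S.dot δ.Ξ δ.F.l, δ.S.dot δ.Ξ δ.F.mb, δ.S.dot δ.Ξ δ.F.m, 0, 0]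
def xo : Fin 6 → A := ![δ.xr 0 * δ.ni, δ.xr 1 * δ.T.G.tp δ.rt, δ.xr 2, δ.xr 3, 0, 0]
def Do (i : Fin 6) : Der A := vf (fr δ.T.G) (Uo (δ.T.G.tp δ.rt) δ.ni i)
def Xo : Der A := vf (fr δ.T.G) δ.xr

/-- The horizontal lift. -/
def ht (V : Vec A) : Op A := Geo.hat δ.S δ.F.l δ.F.n δ.F.m δ.F.mb V

theorem cb_xr : cb δ.F δ.xr = δ.Ξ := (δ.wn.toNull.span δ.sis δ.Ξ).symm

theorem w_g (b d : Fin 4) : Wq δ.T.G 0 0 (δ.S.g b d) :=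
  ⟨(δ.sis.H_g b d).trans (by simp), (δ.sis.Hb_g b d).trans (by simp)⟩

theorem Xo_bs (h : δ.Bs f) : δ.Xo f = ∑ d, δ.Ξ d * δ.K.L d f := by
  simp only [Xo, δ.vf_bs h, δ.vf_co, δ.cb_xr]

theorem act_cb (v : Fin 6 → A) (f : A) : δ.S.act (δ.ht (cb δ.F v)) f = v 0 * δ.T.G.th f +
    v 1 * δ.T.G.tp f + v 2 * δ.T.G.et f + v 3 * δ.T.G.ep f := by
  have e : ∀ Z, δ.S.nab ⟨cb δ.F v, 0, 0⟩ Z = v 0 • δ.S.nab ⟨δ.F.l, 0, 0⟩ Z +
      v 1 • δ.S.nab ⟨δ.F.n, 0, 0⟩ Z + v 2 • δ.S.nab ⟨δ.F.m, 0, 0⟩ Z +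
      v 3 • δ.S.nab ⟨δ.F.mb, 0, 0⟩ Z := fun Z => funext fun d => by
    simp only [Geo.nab, Geo.dv, Geo.act_apply, cb, Geo.Gm_add_left, Geo.Gm_smul_left, Pi.add_apply,
      Pi.smul_apply, smul_eq_mul, Fin.sum_univ_four]
    ring
  change _ = _ * δ.S.act (δ.ht δ.F.l) f + _ * δ.S.act (δ.ht δ.F.n) f +
    _ * δ.S.act (δ.ht δ.F.m) f + _ * δ.S.act (δ.ht δ.F.mb) f
  simp only [Geo.act_apply, ht, Geo.hat, e, Geo.dot_add_left, Geo.dot_smul_left]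
  simp only [cb, Pi.add_apply, Pi.smul_apply, smul_eq_mul, Fin.sum_univ_four]
  ring

theorem nab_cb (v : Fin 6 → A) (Z : Vec A) : δ.S.nab (δ.ht (cb δ.F v)) Z =
    v 0 • δ.S.nab (δ.ht δ.F.l) Z + v 1 • δ.S.nab (δ.ht δ.F.n) Z + v 2 • δ.S.nab (δ.ht δ.F.m) Z +
      v 3 • δ.S.nab (δ.ht δ.F.mb) Z := funext fun d => by
  simp only [Geo.nab, Geo.dv, act_cb, Pi.add_apply, Pi.smul_apply, smul_eq_mul]
  change _ + δ.S.Gm (cb δ.F v) Z d = _ * (δ.T.G.th _ + δ.S.Gm δ.F.l Z d) +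
    _ * (δ.T.G.tp _ + δ.S.Gm δ.F.n Z d) + _ * (δ.T.G.et _ + δ.S.Gm δ.F.m Z d) +
    _ * (δ.T.G.ep _ + δ.S.Gm δ.F.mb Z d)
  simp only [cb, Geo.Gm_add_left, Geo.Gm_smul_left, Pi.add_apply, Pi.smul_apply, smul_eq_mul]
  ring

theorem nb0_eq (U : Vec A) {V : Vec A} (h : ∀ d, Wq δ.T.G 0 0 (V d)) :
    nb0 δ.S U V = δ.S.nab (δ.ht U) V := funext fun d => by
  have e1 : δ.S.H (V d) = _ := (h d).1
  have e2 : δ.S.Hb (V d) = _ := (h d).2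
  simp [nb0, Geo.nab, Geo.dv, Geo.act_apply, ht, Geo.hat, e1, e2]

/-- The vectors with components in B. -/
def VS (B : Subalgebra ℂ A) (V : Vec A) : Prop := ∀ i, δ.S.dot V (fv δ.F i) ∈ B

variable {δ} {B : Subalgebra ℂ A} {U V : Vec A}

theorem VS.add (h : δ.VS B U) (h' : δ.VS B V) : δ.VS B (U + V) := fun i => by
  rw [Geo.dot_add_left]; exact add_mem (h i) (h' i)
theorem VS.smul (e : f ∈ B) (h : δ.VS B V) : δ.VS B (f • V) := fun i => by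
  rw [Geo.dot_smul_left]; exact mul_mem e (h i)
theorem VS.neg (h : δ.VS B V) : δ.VS B (-V) := fun i => by
  rw [Geo.dot_neg_left]; exact neg_mem (h i)
theorem VS.sub (h : δ.VS B U) (h' : δ.VS B V) : δ.VS B (U - V) := by
  rw [sub_eq_add_neg]; exact h.add h'.neg

theorem vs_fv (j : Fin 4) : δ.VS B (fv δ.F j) := fun i => by
  have N := δ.wn.toNull
  have h := δ.sis
  fin_cases i <;> fin_cases j <;> simp only [fv, Fin.reduceFinMk, Matrix.cons_val, N.ll, N.nn, N.mm,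
    N.ln, N.lm, N.nm, N.mmb, N.mbmb h, N.lmb h, N.nmb h, N.nl h, N.ml h, N.mn h, N.mbl h, N.mbn h,
    N.mbm h] <;> first | exact zero_mem _ | exact one_mem _ | exact neg_mem (one_mem _)

theorem vs_cb {v : Fin 6 → A} (h : ∀ i, v i ∈ B) : δ.VS B (cb δ.F v) :=
  ((((vs_fv 0).smul (h 0)).add ((vs_fv 1).smul (h 1))).add ((vs_fv 2).smul (h 2))).add
    ((vs_fv 3).smul (h 3))

theorem VS.dot (h : δ.VS B U) (h' : δ.VS B V) : δ.S.dot U V ∈ B := by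
  rw [δ.wn.toNull.span δ.sis V]
  simp only [Geo.dot_add_right, Geo.dot_smul_right]
  exact add_mem (add_mem (add_mem (mul_mem (neg_mem (h' 1)) (h 0)) (mul_mem (neg_mem (h' 0)) (h 1)))
    (mul_mem (h' 3) (h 2))) (mul_mem (h' 2) (h 3))

theorem vs_nab (hM : ∀ f, M (gz δ.T δ.zi) 3 3 0 0 f → f ∈ B) (a i : Fin 4) :
    δ.VS B (δ.S.nab (δ.ht (fv δ.F a)) (fv δ.F i)) := by
  have N := δ.wn.toNull
  have m : ∀ {f}, M δ.T.gen 1 1 0 0 f → f ∈ B ∧ δ.S.c f ∈ B := fun h =>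
    ⟨hM _ ((of_gen h).mono (by omega) (by omega) le_rfl le_rfl),
      hM _ ((conj_gz (of_gen h)).mono (by omega) (by omega) le_rfl le_rfl)⟩
  have k : ∀ X Y, δ.S.cv Y = X → (-δ.S.dot (δ.S.nab (δ.ht X) δ.F.l) δ.F.m ∈ B) →
      δ.S.c (-δ.S.dot (δ.S.nab (δ.ht Y) δ.F.l) δ.F.m) ∈ B →
      (-δ.S.dot (δ.S.nab (δ.ht X) δ.F.n) δ.F.mb ∈ B) →
      δ.S.c (-δ.S.dot (δ.S.nab (δ.ht Y) δ.F.n) δ.F.mb) ∈ B →
      δ.VS B (δ.S.nab (δ.ht X) (fv δ.F i)) := fun X Y e h1 h2 h3 h4 => by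
    rw [map_neg, δ.sis.c_dot, ht, δ.sis.c_nab (δ.wn.cj_hat δ.sis e)] at h2 h4
    rw [N.c_l, N.c_m] at h2
    rw [N.c_n, N.c_mb δ.sis] at h4
    obtain ⟨e1, e2, e3, e4⟩ := N.table δ.sis (δ.ht X) (δ.wn.gauge δ.sis X) rfl rfl rfl rfl
    fin_cases i
    · exact e1 ▸ ((vs_fv 3).smul h1).neg.sub ((vs_fv 2).smul h2)
    · exact e2 ▸ ((vs_fv 2).smul h3).neg.sub ((vs_fv 3).smul h4)
    · exact e3 ▸ ((vs_fv 1).smul h1).neg.sub ((vs_fv 0).smul h4)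
    · exact e4 ▸ ((vs_fv 0).smul h3).neg.sub ((vs_fv 1).smul h2)
  obtain ⟨a1, a2, a3, a4, a5, a6, a7, a8, -⟩ := δ.T.atoms
  fin_cases a
  exacts [k _ _ N.c_l (m a5).1 (m a5).2 (m a4).1 (m a4).2,
    k _ _ N.c_n (m a3).1 (m a3).2 (m a7).1 (m a7).2,
    k _ _ (N.c_mb δ.sis) (m a6).1 (m a1).2 (m a2).1 (m a8).2,
    k _ _ N.c_m (m a1).1 (m a6).2 (m a8).1 (m a2).2]

end Dt

/-- The elements f of B with X f in B. -/
def gs (B : Subalgebra ℂ A) (X : Der A) : Subalgebra ℂ A where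
  carrier := {f | f ∈ B ∧ X f ∈ B}
  add_mem' h h' := ⟨add_mem h.1 h'.1, by rw [D_add]; exact add_mem h.2 h'.2⟩
  mul_mem' h h' := ⟨mul_mem h.1 h'.1, by
    rw [D_mul]; exact add_mem (mul_mem h.1 h'.2) (mul_mem h'.1 h.2)⟩
  algebraMap_mem' z := ⟨algebraMap_mem _ z, by rw [D_alg]; exact zero_mem _⟩

theorem m_zr (δ : Dt A) (k : ℝ) (b : Fin 6) :
    M (gz δ.T δ.zi) 2 2 0 0 (zr δ.T.G k δ.ze δ.zi b) := by
  have z := m_ze δ.e1 δ.e3 (T := δ.T)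
  have d := fun b => ((M.num (n := 0) 2).mul (δ.m_fr z b)).mono one_le_two one_le_two le_rfl le_rfl
  obtain ⟨a1, a2, a3, a4, -⟩ := δ.T.atoms
  have q : M (gz δ.T δ.zi) 2 2 0 0 (δ.zi ^ 2) := by
    rw [sq]; exact (m_zi.mul m_zi).mono (by omega) (by omega) le_rfl le_rfl
  have p : ∀ {f g}, M δ.T.gen 1 1 0 0 f → M δ.T.gen 1 1 0 0 g → M δ.T.gen 2 2 0 0 (f * g) :=
    fun h h' => (Tv.m11 h h').mono one_le_two le_rfl le_rfl le_rfl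
  have x : ∀ b, M (gz δ.T δ.zi) 2 2 0 0 (xi δ.T.G δ.ze δ.zi b) := fun b => by
    fin_cases b
    exacts [(d 1).neg, d 0, d 3, (d 2).neg, q.neg, ((M.num (n := 0) 2).mul
      (z.mul' (of_gen ((((δ.T.mdy 1 0).sub (p a3 a4)).sub (p a1 a2)).add (p a3 (Tv.conj a3))))
        (by omega) le_rfl le_rfl le_rfl le_rfl le_rfl)).add q]
  exact ((x b).add (conj_gz (x _))).cmul _

/-- The three forms of the gauge. -/
def Dt.Ga (δ : Dt A) (B : Subalgebra ℂ A) (C : Set A) : Prop :=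
  (∃ li ∈ B, ∃ u ∈ C, ∃ v ∈ C, ∃ w ∈ C, δ.T.G.th δ.rt * li = 1 ∧
    δ.Ξ = u • cb δ.F (zr δ.T.G (δ.k / 8) δ.ze δ.zi) + v • li • δ.F.l + w • -δ.ni • δ.F.n) ∨
  (∃ li ∈ B, ∃ u ∈ C, ∃ v ∈ C, δ.T.G.th δ.rt * li = 1 ∧ nb0 δ.S δ.Ξ δ.Ξ =
    -(δ.T.G.th δ.rt * δ.T.G.tp δ.rt) • (u • aj δ.S (li • δ.F.l) (-δ.ni • δ.F.n) δ.Ξ +
      v • aj δ.S (-δ.ni • δ.F.n) (li • δ.F.l) δ.Ξ)) ∨ nb0 δ.S δ.Ξ δ.Ξ = 0

/-- **The gauge.** -/
theorem Dt.gauge (δ : Dt A) {B : Subalgebra ℂ A} (hM : ∀ f, M (gz δ.T δ.zi) 3 3 0 0 f → f ∈ B)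
    (hn : δ.ni ∈ B) (hx : ∀ i, δ.xo i ∈ B) (hC : ∀ f ∈ C, f ∈ B)
    (hL : ∀ f ∈ C, δ.Bs f ∧ ∀ d, δ.K.L d f ∈ C) (hΞ : ∀ d, δ.Ξ d ∈ C) (G : δ.Ga B C) (i : Fin 6) :
    δ.Xo (δ.xo i) ∈ B := by
  have en : δ.T.G.tp δ.rt * δ.ni = 1 := δ.en
  have r1 := fun b => (δ.m_fr δ.m_rt b).mono one_le_two one_le_two le_rfl le_rfl
  have m2 : ∀ f, M (gz δ.T δ.zi) 2 2 0 0 f → f ∈ B := fun f h =>
    hM f (h.mono (by omega) (by omega) le_rfl le_rfl)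
  have xr : ∀ i, δ.xr i ∈ B := fun i => by
    fin_cases i
    exacts [(show δ.xr 0 * δ.ni * δ.T.G.tp δ.rt = δ.xr 0 by linear_combination δ.xr 0 * en) ▸
        mul_mem (hx 0) (m2 _ (r1 1)),
      (show δ.xr 1 * δ.T.G.tp δ.rt * δ.ni = δ.xr 1 by linear_combination δ.xr 1 * en) ▸
        mul_mem (hx 1) hn, hx 2, hx 3, zero_mem _, zero_mem _]
  have gM : ∀ f, M (gz δ.T δ.zi) 2 2 0 0 f → f ∈ gs B δ.Xo := fun f h => ⟨m2 f h, by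
    rw [Dt.Xo, vf_ap]; exact sum_mem fun b _ => mul_mem (xr b) (hM _ (δ.m_fr h b))⟩
  have gC : ∀ f ∈ C, f ∈ gs B δ.Xo := fun f h => ⟨hC f h, by
    rw [δ.Xo_bs (hL f h).1]
    exact sum_mem fun d _ => mul_mem (hC _ (hΞ d)) (hC _ ((hL f h).2 d))⟩
  have gi : ∀ b v, v ∈ B → fr δ.T.G b δ.rt * v = 1 → v ∈ gs B δ.Xo := fun b v h e => ⟨h, by
    rw [D_inv _ e]; exact neg_mem (mul_mem (mul_mem h h) (gM _ (r1 b)).2)⟩
  have gn := gi 1 _ hn en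
  suffices H : δ.VS (gs B δ.Xo) δ.Ξ by
    fin_cases i
    exacts [(mul_mem (neg_mem (H 1)) gn).2, (mul_mem (neg_mem (H 0)) (gM _ (r1 1))).2, (H 3).2,
      (H 2).2, (zero_mem (gs B δ.Xo)).2, (zero_mem (gs B δ.Xo)).2]
  have vΞ : δ.VS B δ.Ξ := δ.cb_xr ▸ Dt.vs_cb xr
  have red : δ.VS B (nb0 δ.S δ.Ξ δ.Ξ) → δ.VS (gs B δ.Xo) δ.Ξ := fun h i => ⟨vΞ i, by
    have e : ∀ f, δ.Xo f = δ.S.act (δ.ht δ.Ξ) f := fun f => by
      rw [← δ.cb_xr, δ.act_cb, Dt.Xo, vf_ap, Fin.sum_univ_six]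
      simp only [Dt.xr, fr, Matrix.cons_val, zero_mul, add_zero]
    rw [e, δ.sis.act_dot, ← δ.nb0_eq _ fun d => δ.bs_iff.1 (hL _ (hΞ d)).1]
    refine add_mem (h i) (vΞ.dot ?_)
    rw [← δ.cb_xr, δ.nab_cb]
    exact ((((Dt.vs_nab hM 0 i).smul (xr 0)).add ((Dt.vs_nab hM 1 i).smul (xr 1))).add
      ((Dt.vs_nab hM 2 i).smul (xr 2))).add ((Dt.vs_nab hM 3 i).smul (xr 3))⟩
  rcases G with ⟨li, hl, u, hu, v, hv, w, hw, el, e⟩ | ⟨li, hl, u, hu, v, hv, el, e⟩ | e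
  · rw [e]
    exact (((Dt.vs_cb fun b => gM _ (m_zr δ _ b)).smul (gC u hu)).add
      (((Dt.vs_fv 0).smul (gi 0 _ hl el)).smul (gC v hv))).add
      (((Dt.vs_fv 1).smul (neg_mem gn)).smul (gC w hw))
  · have di : ∀ b v, v ∈ B → fr δ.T.G b δ.rt * v = 1 → fr δ.T.G b v ∈ B := fun b v h e => by
      rw [D_inv _ e]; exact neg_mem (mul_mem (mul_mem h h) (hM _ (δ.m_fr (r1 b) b)))
    have vl : δ.VS B (li • δ.F.l) := (Dt.vs_fv 0).smul hl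
    have vn : δ.VS B (-δ.ni • δ.F.n) := (Dt.vs_fv 1).smul (neg_mem hn)
    have al : δ.VS B (nb0 δ.S (li • δ.F.l) (li • δ.F.l)) := by
      rw [δ.nb0_eq _ (V := li • δ.F.l) fun d => (((δ.w_rt.fr δ.T.is 0).inv el).mul
        (δ.fr_co 0 d ▸ (δ.w_co d).fr δ.T.is 0)).to rfl rfl]
      nth_rewrite 1 [show li • δ.F.l = cb δ.F ![li, 0, 0, 0, 0, 0] by simp [cb]]
      simp only [δ.nab_cb, Matrix.cons_val, zero_smul, add_zero, Geo.nab_smul]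
      exact (((Dt.vs_fv 0).smul (di 0 _ hl el)).add ((Dt.vs_nab hM 0 0).smul hl)).smul hl
    have an : δ.VS B (nb0 δ.S (-δ.ni • δ.F.n) (-δ.ni • δ.F.n)) := by
      rw [δ.nb0_eq _ (V := -δ.ni • δ.F.n) fun d => (((δ.w_rt.fr δ.T.is 1).inv en).neg.mul
        (δ.fr_co 1 d ▸ (δ.w_co d).fr δ.T.is 1)).to rfl rfl]
      nth_rewrite 1 [show -δ.ni • δ.F.n = cb δ.F ![0, -δ.ni, 0, 0, 0, 0] by simp [cb]]
      simp only [δ.nab_cb, Matrix.cons_val, zero_smul, add_zero, zero_add, Geo.nab_smul, D_neg]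
      exact (((Dt.vs_fv 1).smul (neg_mem (di 1 _ hn en))).add
        ((Dt.vs_nab hM 1 1).smul (neg_mem hn))).smul (neg_mem hn)
    exact red (e ▸ ((((vn.smul (al.dot vΞ)).sub (al.smul (vn.dot vΞ))).smul (hC u hu)).add
      (((vl.smul (an.dot vΞ)).sub (an.smul (vl.dot vΞ))).smul (hC v hv))).smul
      (neg_mem (mul_mem (m2 _ (r1 0)) (m2 _ (r1 1)))))
  · exact red fun i => by rw [e, Geo.dot_zero_left]; exact zero_mem _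

variable {δ : Dt A} (h : Bz δ φ l C L η)
include h

theorem Bz.lt (hL : N + 2 < L) :
    Lt φ l (fr δ.T.G) (N + 1) (Uo (δ.T.G.tp δ.rt) δ.ni) (Uo δ.ni (δ.T.G.tp δ.rt)) := by
  have en : δ.T.G.tp δ.rt * δ.ni = 1 := δ.en
  have r1 := (h.fh.jet (m := N + 1) (δ.m_fr δ.m_rt 1) (by omega)).1
  have jn : J φ l (fr δ.T.G) (N + 1) (fun _ => o1) δ.ni := J.inv en r1 h.ni
  refine ⟨fun e f => ?_, fun i e => ?_, fun i e => ?_⟩
  · fin_cases e <;> simp only [vf_ap, Uo, fr, Fin.sum_univ_six, Fin.reduceFinMk, Matrix.cons_val]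
    · linear_combination -δ.T.G.th f * en
    · linear_combination -δ.T.G.tp f * en
    all_goals ring
  all_goals fin_cases i <;> fin_cases e <;> first | exact .zero | exact .one | exact r1 | exact jn

theorem Bz.xo (hL : N + 2 < L) (hl : l0 ≤ l) (hn : n ≤ N + 1)
    (e : ∀ i d, J φ l0 (f4 δ.T.G) n (fun _ => o1) (P354HI.fv δ.F i d))
    (e' : ∀ b d, J φ l0 (f4 δ.T.G) n (fun _ => o1) (δ.S.g b d)) (i : Fin 6) :
    J φ l0 δ.Do n (fun _ => o1) (δ.xo i) := by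
  have lt := (h.lt hL).le hl hn
  have hc := δ.cx h.fh.cj (h.kc.fil hl) (U := Uo (δ.T.G.tp δ.rt) δ.ni) (x := 0) (fun i =>
    ⟨![0, 0, 1, -1, 0, 0] i, fun e => by
      fin_cases i <;> fin_cases e <;> first
        | exact .zero | exact .one | exact δ.w_rt.fr δ.T.is 1
        | exact (δ.w_rt.fr δ.T.is 1).inv δ.en⟩) fun _ => map_zero _
  have k : ∀ j, J φ l0 δ.Do n (fun _ => o1) (δ.S.dot δ.Ξ (P354HI.fv δ.F j)) := fun j =>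
    .sum _ fun b _ => .sum _ fun d _ => ((lt.fw (J.six δ.T.is
      ⟨0, 0, δ.w_g b d⟩ (e' b d)) n.le_succ).bmul
      (hc.low (fun k hk i d => (lt_ini lt e i d).le hk.le) (h.Ξ b))).bmul
      (lt.fw (J.six δ.T.is (δ.w_fv j d) (e j d)) n.le_succ)
  fin_cases i
  exacts [(k 1).neg.bmul (lt.fw (lt.bU 1 1) n.le_succ), (k 0).neg.bmul (lt.fw (lt.bU 0 0) n.le_succ),
    k 3, k 2, .zero, .zero]

/-- **Outside of the tube.** -/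
theorem Bz.off (hL : N + 2 < L) (hl : l0 ≤ l)
    (G : ∀ n < N, ∀ u hu, (∀ i, δ.xo i ∈ topSub φ l δ.Do (n + 1) u hu) →
      (∀ f ∈ C, f ∈ topSub φ l δ.Do (n + 1) u hu) →
      ∀ i, δ.Xo (δ.xo i) ∈ topSub φ l δ.Do (n + 1) u hu)
    (hΛ : ∀ X : A → A, (∀ f, δ.Bs f → X f = ∑ d, δ.Ξ d * δ.K.L d f) →
      ∃ Λ : Ln φ l l0 X δ.Bs, Λ.Int o1)
    (e : ∀ i d, J φ l0 (f4 δ.T.G) (N + 1) (fun _ => o1) (P354HI.fv δ.F i d))
    (e' : ∀ b d, J φ l0 (f4 δ.T.G) (N + 1) (fun _ => o1) (δ.S.g b d)) (i d : Fin 4) :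
    J φ l (f4 δ.T.G) N (fun _ => o1) (P354HI.fv δ.F i d) := by
  have en : δ.T.G.tp δ.rt * δ.ni = 1 := δ.en
  have lt := h.lt hL
  have N0 := δ.wn.toNull
  have wr := δ.w_rt.fr δ.T.is 1
  have hc := δ.cx h.fh.cj h.kc (U := Uo (δ.T.G.tp δ.rt) δ.ni) (x := δ.xr) (fun i =>
    ⟨![0, 0, 1, -1, 0, 0] i, fun e => by
      fin_cases i <;> fin_cases e <;> first
        | exact .zero | exact .one | exact wr | exact wr.inv en⟩) fun b => by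
      change δ.S.c _ = _
      fin_cases b <;> simp only [Dt.xr, bar, Fin.reduceFinMk, Matrix.cons_val, map_neg, map_zero,
        δ.sis.c_dot, δ.cΞ, N0.c_l, N0.c_n, N0.c_m, N0.c_mb δ.sis]
  choose γ cγ bγ using lt_cmD lt fun a b e => (h.fh.jet (of_gen (δ.T.mga a b e)) (by omega)).1
  obtain ⟨Λ, hb⟩ := hΛ δ.Xo fun f => δ.Xo_bs
  have wd : ∀ j : Fin 4, Wq δ.T.G (wp (j.castLE (by omega))) (wq (j.castLE (by omega)))
      (δ.S.dot δ.Ξ (P354HI.fv δ.F j)) := fun j =>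
    Finset.sum_induction _ (Wq _ _ _) (fun _ _ => Wq.add) .zero fun b _ =>
      Finset.sum_induction _ (Wq _ _ _) (fun _ _ => Wq.add) .zero fun d _ =>
        (((δ.w_g b d).mul (δ.bs_iff.1 ⟨h.kc.H _ (h.Ξ b), h.kc.B _ (h.Ξ b)⟩)).mul
          (δ.fr_co j d ▸ (δ.w_co d).fr δ.T.is _)).to (by simp) (by simp)
  refine lt_out (lt.le le_rfl N.le_succ) (hc.off Λ hb (x := δ.xo) (fun f => ?_) cγ bγ (fun i => ?_)
    (fun d => ?_) (h.xo hL le_rfl (by omega) h.fv h.g)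
    (fun i d => (lt_ini (lt.le le_rfl (by omega)) h.fv i d).val) G (h.xo hL hl le_rfl e e')
    fun i d => (lt_ini (lt.le hl le_rfl) e i d).le N.le_succ) i d
  · simp only [vf_ap, Dt.xo, Uo, Fin.sum_univ_six, Matrix.cons_val]
    simp only [Dt.xr, Matrix.cons_val]
    linear_combination (δ.S.dot δ.Ξ δ.F.n * fr δ.T.G 0 f + δ.S.dot δ.Ξ δ.F.l * fr δ.T.G 1 f) * en
  · fin_cases i
    exacts [⟨0, (wd 1).neg.mul (wr.inv en)⟩, ⟨0, (wd 0).neg.mul wr⟩, ⟨-1, wd 3⟩, ⟨1, wd 2⟩,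
      ⟨0, .zero⟩, ⟨0, .zero⟩]
  · rw [δ.vf_co, δ.cb_xr]; exact h.Ξ d

end Vale.Agent.P354HI
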