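import Vale.Agent.P354HI.Ft
import Vale.Agent.P354HI.Ly

/-!
The estimate along the lines for finite families, and the jets of the functions of the chart.
-/

open Filter Asymptotics

namespace Vale.Agent.P354HI

open Vale.Agent.P354XF (wd)
open Vale.Agent.P354XG (Der D_mul D_zero D_add)

variable {A : Type} {P ι I I' : Type*} [CommRing A] [Algebra ℂ A] {φ : P → A →ₐ[ℂ] ℂ}
  {l l0 : Filter P} {a b ε u : P → ℝ} {f g : A} {n m : ℕ} [Fintype I] [Fintype I'] {X : Der A}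
  {c : A →+* A} {Bs Ws : A → Prop}

/-- The size of a finite family. -/
noncomputable def sz (φ : P → A →ₐ[ℂ] ℂ) (W : I → A) (p : P) : ℝ := ∑ i, ‖φ p (W i)‖ ^ 2
noncomputable def uu (φ : P → A →ₐ[ℂ] ℂ) (W : I → A) (p : P) : ℝ := √(1 + sz φ W p)
noncomputable def vv (φ : P → A →ₐ[ℂ] ℂ) (W : I → A) (p : P) : ℝ := √(sz φ W p)

theorem sz_nn (W : I → A) (p : P) : 0 ≤ sz φ W p := Finset.sum_nonneg fun _ _ => sq_nonneg _

theorem le_vv (W : I → A) (p : P) (i : I) : ‖φ p (W i)‖ ≤ vv φ W p :=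
  Real.le_sqrt_of_sq_le (Finset.single_le_sum (f := fun i => ‖φ p (W i)‖ ^ 2)
    (fun _ _ => sq_nonneg _) (Finset.mem_univ i))

theorem le_uu (W : I → A) (p : P) (i : I) : ‖φ p (W i)‖ ≤ uu φ W p :=
  (le_vv W p i).trans (Real.sqrt_le_sqrt (le_add_of_nonneg_left zero_le_one))

theorem one_uu (W : I → A) (p : P) : 1 ≤ uu φ W p :=
  Real.one_le_sqrt.2 (le_add_of_nonneg_right (sz_nn W p))

theorem o_vv (W : I → A) (i : I) : O φ l (vv φ W) (W i) :=
  isBigO_of_le _ fun p => (le_vv W p i).trans (le_abs_self _)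
theorem o_uu (W : I → A) (i : I) : O φ l (uu φ W) (W i) :=
  isBigO_of_le _ fun p => (le_uu W p i).trans (le_abs_self _)
theorem o1_uu (W : I → A) : (o1 : P → ℝ) =O[l] uu φ W :=
  isBigO_of_le _ fun p => by simpa using (one_uu W p).trans (le_abs_self _)

theorem vv_o {V : I → A} (h : ∀ j, O φ l a (V j)) : vv φ V =O[l] a := by
  refine (isBigO_of_le _ fun p => ?_).trans
    (IsBigO.fun_sum fun j (_ : j ∈ Finset.univ) => (h j).norm_left)
  rw [vv, Real.norm_of_nonneg (Real.sqrt_nonneg _), Real.norm_of_nonneg (by positivity)]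
  exact Real.sqrt_le_iff.2 ⟨by positivity,
    Finset.sum_sq_le_sq_sum_of_nonneg fun _ _ => norm_nonneg _⟩

theorem re_sz (hc : Cj φ c) (W : I → A) (p : P) : φ p (∑ i, W i * c (W i)) = sz φ W p := by
  simp only [map_sum, map_mul, hc _, Complex.mul_conj, Complex.normSq_eq_norm_sq, sz,
    Complex.ofReal_sum]

theorem re_X (hc : Cj φ c) (hX : ∀ f, X (c f) = c (X f)) (W : I → A) (κ : I → ℝ) (p : P) {r s : ℝ}
    (h : ∀ i, ‖φ p (W i)‖ ≤ r) (h' : ∀ i, ‖φ p (X (W i) + algebraMap ℂ A (κ i) * W i)‖ ≤ s) :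
    (φ p (X (∑ i, W i * c (W i)))).re ≤
      2 * (Fintype.card I * (r * s) - ∑ i, κ i * ‖φ p (W i)‖ ^ 2) := by
  rw [map_sum, map_sum, Complex.re_sum, ← Finset.card_univ, ← nsmul_eq_mul, ← Finset.sum_const,
    ← Finset.sum_sub_distrib, Finset.mul_sum]
  refine Finset.sum_le_sum fun i _ => ?_
  have e := (Complex.re_le_norm (starRingEnd ℂ (φ p (W i)) *
    φ p (X (W i) + algebraMap ℂ A (κ i) * W i))).trans ((norm_mul_le _ _).trans (mul_le_mul
      ((RCLike.norm_conj _).trans_le (h i)) (h' i) (norm_nonneg _) ((norm_nonneg _).trans (h i))))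
  rw [D_mul, hX, ← Complex.normSq_eq_norm_sq]
  simp only [map_add, map_mul, hc _, AlgHom.commutes, Complex.normSq_apply] at e ⊢
  simp at e ⊢
  linarith

theorem O.all {W : I → A} (h : ∀ i, O φ l a (W i)) :
    ∃ C, 0 ≤ C ∧ ∀ᶠ p in l, ∀ i, ‖φ p (W i)‖ ≤ C * |a p| := by
  obtain ⟨C, hC, e⟩ := (vv_o h).exists_nonneg
  exact ⟨C, hC, e.bound.mono fun p e i => (le_vv W p i).trans ((le_abs_self _).trans e)⟩

/-- The estimate for a family W and a damped family V. -/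
theorem Ln.ql (Λ : Ln φ l l0 X Bs) (hc : Cj φ c) (hX : ∀ f, X (c f) = c (X f)) {W : I → A}
    {V : I' → A} (hW : Bs (∑ i, W i * c (W i))) (hV : Bs (∑ i, V i * c (V i))) (hb : Λ.Int b)
    (e0 : ∀ p, 0 ≤ ε p) (e1 : ε =o[l] (o1 : P → ℝ)) {κ : I' → ℝ} (hκ : ∀ j, 1 ≤ κ j)
    (h1 : ∀ i, O φ l (fun p => b p * uu φ W p + vv φ V p) (X (W i)))
    (h2 : ∀ j, O φ l (fun p => ε p * vv φ V p + b p * uu φ W p)
      (X (V j) + algebraMap ℂ A (κ j) * V j))
    (h3 : ∀ j, O φ l (uu φ W) (V j)) (h0 : ∀ i, O φ l0 o1 (W i)) :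
    uu φ W =O[l] (o1 : P → ℝ) ∧ Λ.Int fun p => b p + vv φ V p := by
  obtain ⟨C1, c1, h1⟩ := O.all h1
  obtain ⟨C2, c2, h2⟩ := O.all h2
  obtain ⟨C3, c3, h3⟩ := (vv_o h3).exists_nonneg
  obtain ⟨D1, d1⟩ : ∃ D, D = Fintype.card I * C1 := ⟨_, rfl⟩
  obtain ⟨D2, d2⟩ : ∃ D, D = Fintype.card I' * C2 := ⟨_, rfl⟩
  have p1 : 0 ≤ D1 := by rw [d1]; positivity
  have p2 : 0 ≤ D2 := by rw [d2]; positivity
  have := Λ.ly hW hV hb (C := D1 + D2 + C3 ^ 2) (κ := 1 / 2) (by positivity) (by norm_num) ?_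
    (O.sum _ fun i _ => (h0 i).bmul ((h0 i).cj hc))
  · simp only [re_sz hc, Complex.ofReal_re] at this
    obtain ⟨⟨K, hK⟩, h⟩ := this
    refine ⟨IsBigO.of_bound √(1 + K) (hK.mono fun p e => ?_), h⟩
    rw [norm_one, mul_one, uu, Real.norm_of_nonneg (Real.sqrt_nonneg _)]
    exact Real.sqrt_le_sqrt (by linarith)
  filter_upwards [h1, h2, h3.bound, hb.1, e1.def (show 0 < 1 / (2 * (D2 + 1)) by positivity)]
    with p h1 h2 h3 b0 e1
  simp only [re_sz hc, Complex.ofReal_re]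
  have u1 := one_uu (φ := φ) W p
  have v0 : 0 ≤ vv φ V p := Real.sqrt_nonneg _
  have e0 := e0 p
  have su : uu φ W p ^ 2 = 1 + sz φ W p := Real.sq_sqrt (by linarith [sz_nn (φ := φ) W p])
  have sv : vv φ V p ^ 2 = sz φ V p := Real.sq_sqrt (sz_nn V p)
  have k1 := re_X hc hX W 0 p (le_uu W p) (s := C1 * (b p * uu φ W p + vv φ V p)) fun i => by
    simpa [abs_of_nonneg (show 0 ≤ b p * uu φ W p + vv φ V p by positivity)] using h1 i
  have k2 := re_X hc hX V κ p (le_vv V p) (s := C2 * (ε p * vv φ V p + b p * uu φ W p)) fun i => by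
    simpa only [abs_of_nonneg (show 0 ≤ ε p * vv φ V p + b p * uu φ W p by positivity)] using h2 i
  have k3 : sz φ V p ≤ ∑ i, κ i * ‖φ p (V i)‖ ^ 2 :=
    Finset.sum_le_sum fun i _ => le_mul_of_one_le_left (sq_nonneg _) (hκ i)
  rw [Real.norm_of_nonneg v0, Real.norm_of_nonneg (by linarith)] at h3
  rw [Real.norm_of_nonneg e0, norm_one, mul_one, le_div_iff₀ (by positivity)] at e1
  simp only [Pi.zero_apply, zero_mul, Finset.sum_const_zero, sub_zero] at k1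
  rw [mul_left_comm _ (uu φ W p), ← mul_assoc _ C1, ← d1] at k1
  rw [mul_left_comm _ (vv φ V p), ← mul_assoc _ C2, ← d2] at k2
  change _ ∧ _ ∧ _ ∧ _ ≤ _ * uu φ W p * (_ * uu φ W p + vv φ V p) ∧
    _ ≤ 2 * (_ * vv φ V p * (_ * uu φ W p) - _)
  rw [← su]
  refine ⟨sz_nn W p, sz_nn V p, ?_, k1.trans ?_, k2.trans ?_⟩
  · have := pow_le_pow_left₀ v0 h3 2
    nlinarith [mul_nonneg (add_nonneg p1 p2) (sq_nonneg (uu φ W p))]
  · have : 0 ≤ (D2 + C3 ^ 2) * (uu φ W p * (b p * uu φ W p + vv φ V p)) := by positivity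
    linarith
  · have : 0 ≤ (D1 + C3 ^ 2) * (vv φ V p * (b p * uu φ W p)) := by positivity
    nlinarith [mul_le_mul_of_nonneg_right (show D2 * ε p ≤ 1 / 2 by nlinarith) (sq_nonneg (vv φ V p))]

variable {D : ι → Der A}

theorem J.tb (h : J φ l D m (tp n a b) f) (h' : J φ l D m (fun _ => o1) g) (e : a =O[l] b) :
    J φ l D m (tp n a b) (f * g) := h.mul h' fun i j _ => by
  simp only [mul_one, tp]
  split_ifs
  exacts [isBigO_refl _ _, e, by omega, isBigO_refl _ _]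

/-- The context: conjugation, weights, and a class C of functions of the coordinates z. -/
structure Cx (φ : P → A →ₐ[ℂ] ℂ) (l : Filter P) (D : ι → Der A) (X : Der A) (c : A →+* A)
    (Bs Ws : A → Prop) (z : Fin 4 → A) (L : Fin 4 → Der A) (C : Set A) : Prop where
  cj : Cj φ c
  re : ∀ f, X (c f) = c (X f)
  ws : ∀ i f, Ws f → Ws (D i f)
  b0 : Bs 0
  ba : ∀ f g, Bs f → Bs g → Bs (f + g)
  bs : ∀ f, Ws f → Bs (f * c f)
  wz : ∀ d, Ws (z d)
  bd : ∀ f ∈ C, O φ l o1 f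
  cl : ∀ f ∈ C, ∀ d, L d f ∈ C
  dd : ∀ f ∈ C, ∀ i, D i f = ∑ d, D i (z d) * L d f

variable {z : Fin 4 → A} {L : Fin 4 → Der A} {C : Set A} (h : Cx φ l D X c Bs Ws z L C)
include h

theorem Cx.wd (e : Ws f) (w : List ι) : Ws (wd D w f) := by
  induction w with
  | nil => exact e
  | cons i w ih => exact h.ws i _ ih

theorem Cx.sum {W : I → A} (e : ∀ i, Ws (W i)) : Bs (∑ i, W i * c (W i)) :=
  Finset.sum_induction _ Bs h.ba h.b0 fun i _ => h.bs _ (e i)

theorem Cx.low (e : ∀ k < n, ∀ i d, J φ l D k (fun _ => o1) (D i (z d))) (hf : f ∈ C) :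
    J φ l D n (fun _ => o1) f := by
  induction n generalizing f with
  | zero => exact .zero' (h.bd f hf)
  | succ n ih =>
    refine .succ (h.bd f hf) fun i => ?_
    rw [h.dd f hf]
    exact .sum _ fun d _ => (e n n.lt_succ_self i d).bmul
      (ih (fun k hk => e k (by omega)) (h.cl f hf d))

theorem Cx.top (hu : (o1 : P → ℝ) =O[l] u) (e : ∀ i d, J φ l D n (tp n o1 u) (D i (z d)))
    (hf : f ∈ C) : J φ l D (n + 1) (tp (n + 1) o1 u) f := by
  refine .st (h.bd f hf) fun i => ?_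
  rw [h.dd f hf]
  exact .sum _ fun d _ => (e i d).tb
    (h.low (fun k hk i d => (e i d).low hk hk.le) (h.cl f hf d)) hu

end Vale.Agent.P354HI
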