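import Vale.Agent.P354HI.Off

/-!
The gauge in a zone, and the hypotheses of the finite type theorem.
-/

open Filter Asymptotics

noncomputable section

namespace Vale.Agent.P354HI

open Vale.Agent.P354XF (wd Tv fr gam bar M)
open Vale.Agent.P354XG Vale.Agent.P354XD
open Vale.Agent.P354YA (GHom fm vm f4_hom)
open Vale.Agent.P354Z (f4 sc)

variable {A A' : Type} {P P' : Type} [CommRing A] [Algebra ℂ A] [CommRing A'] [Algebra ℂ A']
  {φ : P → A →ₐ[ℂ] ℂ} {φ' : P' → A' →ₐ[ℂ] ℂ} {l : Filter P} {l' : Filter P'} {η : P → ℝ}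
  {η' : P' → ℝ} {f : A} {n N L : ℕ} {C : Set A} {C' : Set A'} {δ : Dt A} {δ' : Dt A'}
  {ψ : A →ₐ[ℂ] A'} {π : P' → P}

theorem O.inv {u v : A} (e : u * v = 1) {c : ℝ} (h : ∀ᶠ p in l, ‖(φ p u)⁻¹‖ ≤ c) : O φ l o1 v :=
  .of_bound c (h.mono fun p k => by
    have := congrArg (φ p) e
    rw [map_mul, map_one] at this
    rw [eq_inv_of_mul_eq_one_right this]
    simpa using k)

theorem fh_of {T : Tv A} {zi : A} (e3 : zi ^ 3 = T.G.P2) (cj : Cj φ T.G.c)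
    (hs : ∀ i, J φ l (f4 T.G) 1 (fun _ => o1) (sc T.G i)) {c : ℝ}
    (hP : ∀ᶠ p in l, ‖(φ p T.G.P2)⁻¹‖ ≤ c) (sml : η =o[l] (o1 : P → ℝ))
    (h0 : J φ l (f4 T.G) L (fun _ => η) T.G.P0) (h4 : J φ l (f4 T.G) L (fun _ => η) T.G.P4) :
    Fh φ l T zi L η := by
  have h := T.is
  have y : ∀ e, J φ l (fr T.G) 1 (fun _ => o1) (T.y e) := fun e => by
    fin_cases e
    exacts [J.six h ⟨1, 1, by simpa [Tv.y] using h.H_rh, by simpa [Tv.y] using h.Hb_rh⟩ (hs 2),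
      J.six h ⟨-1, -1, by simpa [Tv.y] using h.H_rh', by simpa [Tv.y] using h.Hb_rh'⟩ (hs 6),
      J.six h ⟨1, -1, by simpa [Tv.y] using h.H_ta, by simpa [Tv.y] using h.Hb_ta⟩ (hs 3),
      J.six h ⟨-1, 1, by simpa [Tv.y] using h.H_ta', by simpa [Tv.y] using h.Hb_ta'⟩ (hs 7),
      .zero, .zero]
  have z : O φ l o1 zi := IsBigO.of_pow three_ne_zero (by
    have := (hs 10).val
    rw [show sc T.G 10 = zi ^ 3 from e3.symm, O] at this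
    simpa only [map_pow, Pi.pow_def, one_pow] using this)
  have k : ∀ x, ¬ (gz T zi).sm (false, x) → O φ l o1 ((gz T zi).x (false, x)) := by
    rintro (_ | _ | _ | e | ⟨b, e⟩ | _) hx
    exacts [z, (hs 10).val, O.inv ((mul_comm _ _).trans T.inv) (c := c) (hP.mono fun p k => by
      rw [map_mul, map_ofNat, mul_inv, norm_mul, norm_inv, RCLike.norm_ofNat]
      linarith [norm_nonneg (φ p T.G.P2)⁻¹]), (y e).val, ((y e).d b).val, (hx trivial).elim]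
  refine ⟨e3, cj, ?_, sml, J.six h ⟨4, 0, by simpa using h.H_P0, by simpa using h.Hb_P0⟩ h0,
    J.six h ⟨-4, 0, by simpa using h.H_P4, by simpa using h.Hb_P4⟩ h4⟩
  rintro ⟨_ | _, x⟩ hx
  · exact k x hx
  · cases x <;> exact (k _ hx).cj cj

/-- A homomorphism of the data. -/
structure Dh (δ : Dt A) (δ' : Dt A') (ψ : A →ₐ[ℂ] A') : Prop where
  S : GHom δ.S δ'.S ψ
  F : fm ψ δ.F = δ'.F
  rt : ψ δ.rt = δ'.rt
  ni : ψ δ.ni = δ'.ni
  Ξ : vm ψ δ.Ξ = δ'.Ξ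

namespace Dh
variable (m : Dh δ δ' ψ)
include m

theorem G : GHP.Hom δ.T.G δ'.T.G ψ := by
  have := m.S.ghp δ.F
  rwa [m.F] at this

theorem fr (b : Fin 6) (f : A) : ψ (fr δ.T.G b f) = fr δ'.T.G b (ψ f) := by
  have g := m.G
  fin_cases b
  exacts [g.th f, g.tp f, g.et f, g.ep f, g.H f, g.Hb f]

theorem fv (i d : Fin 4) : ψ (fv δ.F i d) = fv δ'.F i d := by
  rw [← m.F]
  fin_cases i <;> rfl

theorem vf (x : Fin 6 → A) {x' : Fin 6 → A'} (e : ∀ b, ψ (x b) = x' b) (f : A) :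
    ψ (vf (P354XF.fr δ.T.G) x f) = vf (P354XF.fr δ'.T.G) x' (ψ f) := by
  simp only [vf_ap, map_sum, map_mul, e, m.fr]

theorem xr (b : Fin 6) : ψ (δ.xr b) = δ'.xr b := by
  have k : ∀ i, ψ (δ.S.dot δ.Ξ (P354HI.fv δ.F i)) = δ'.S.dot δ'.Ξ (P354HI.fv δ'.F i) := fun i =>
    (m.S.dot _ _).trans (congrArg₂ _ m.Ξ (funext (m.fv i)))
  fin_cases b
  exacts [(map_neg _ _).trans (congrArg _ (k 1)), (map_neg _ _).trans (congrArg _ (k 0)), k 3, k 2,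
    map_zero _, map_zero _]

theorem nr : ψ (δ.T.G.tp δ.rt) = δ'.T.G.tp δ'.rt := by rw [m.G.tp, m.rt]

theorem xo (b : Fin 6) : ψ (δ.xo b) = δ'.xo b := by
  fin_cases b
  exacts [(map_mul _ _ _).trans (congrArg₂ _ (m.xr 0) m.ni),
    (map_mul _ _ _).trans (congrArg₂ _ (m.xr 1) m.nr), m.xr 2, m.xr 3, map_zero _, map_zero _]

theorem Do (i : Fin 6) (f : A) : ψ (δ.Do i f) = δ'.Do i (ψ f) := m.vf _ (fun b => by
  fin_cases i <;> fin_cases b <;> first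
    | exact map_zero _ | exact map_one _ | exact m.nr | exact m.ni) f

variable (e : ∀ p f, φ' p (ψ f) = φ (π p) f)
include e

theorem ini {i d : Fin 4} (h : J φ' l' (f4 δ'.T.G) N (fun _ => o1) (P354HI.fv δ'.F i d)) :
    J φ (map π l') (f4 δ.T.G) N (fun _ => o1) (P354HI.fv δ.F i d) :=
  (J.hom e (f4_hom m.G)).1 (by rw [m.fv]; exact h)

/-- **The gauge in a zone.** -/
theorem gauge (h : Bz δ' φ' l' C' L η') (hL : n + 5 < L) (hl : map π l' ≤ l)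
    (hC : ∀ f' ∈ C', ∃ f ∈ C, ψ f = f') (G : δ'.Ga (bdSub φ' l' (P354XF.fr δ'.T.G) 0) C')
    {u : P → ℝ} {hu : o1 =O[l] u} (hx : ∀ i, δ.xo i ∈ topSub φ l δ.Do (n + 1) u hu)
    (hf : ∀ f ∈ C, f ∈ topSub φ l δ.Do (n + 1) u hu) (i : Fin 6) :
    J φ (map π l') δ.Do (n + 2) (tp (n + 2) o1 u) (δ.Xo (δ.xo i)) := by
  have hu' : (o1 : P' → ℝ) =O[l'] (u ∘ π) := isBigO_map.1 (hu.mono hl)
  have t : (fun i => tp (n + 2) o1 u i ∘ π) = tp (n + 2) o1 (u ∘ π) := funext fun i => by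
    unfold tp
    split_ifs <;> rfl
  have k : ∀ f, ψ f ∈ topSub φ' l' δ'.Do (n + 1) (u ∘ π) hu' ↔
      J φ (map π l') δ.Do (n + 2) (tp (n + 2) o1 u) f := fun f => by
    rw [← J.hom e m.Do, t]
    rfl
  have lt := h.lt (N := n + 1) (by omega)
  have b : ∀ f, J φ' l' (P354XF.fr δ'.T.G) (n + 2) (fun _ => o1) f →
      f ∈ topSub φ' l' δ'.Do (n + 1) (u ∘ π) hu' := fun f hf => (lt.fw hf (by omega)).up hu'
  have bl : ∀ li ∈ bdSub φ' l' (P354XF.fr δ'.T.G) 0, δ'.T.G.th δ'.rt * li = 1 →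
      li ∈ topSub φ' l' δ'.Do (n + 1) (u ∘ π) hu' := fun li hl el =>
    b _ (J.inv el (h.fh.jet (δ'.m_fr δ'.m_rt 0) (by omega)).1 (hl [] le_rfl))
  rw [← k, Dt.Xo, m.vf _ m.xr, m.xo]
  refine δ'.gauge (fun f hf => b f (h.fh.jet hf (by omega)).1) (b _ (lt.bU 1 1))
    (fun i => m.xo i ▸ (k _).2 (J.fil (hx i) hl)) (fun f' hf' => ?_)
    (fun f hf => ⟨⟨h.kc.H f hf, h.kc.B f hf⟩, h.kc.L f hf⟩) h.Ξ ?_ i
  · obtain ⟨f, h1, rfl⟩ := hC f' hf'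
    exact (k f).2 (J.fil (hf f h1) hl)
  · rcases G with ⟨li, hl, u, hu, v, hv, w, hw, el, e⟩ | ⟨li, hl, u, hu, v, hv, el, e⟩ | e
    exacts [.inl ⟨li, bl li hl el, u, hu, v, hv, w, hw, el, e⟩,
      .inr (.inl ⟨li, bl li hl el, u, hu, v, hv, el, e⟩), .inr (.inr e)]

end Dh

/-- A common small bound. -/
theorem ex_eps {ι : Type} [Fintype ι] {x : ι → A}
    (h : ∀ i, ∀ e > 0, ∀ᶠ p in l, ‖φ p (x i)‖ ≤ e) :
    ∃ ε : P → ℝ, (∀ p, 0 ≤ ε p) ∧ ε =o[l] (o1 : P → ℝ) ∧ ∀ i, O φ l ε (x i) :=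
  ⟨fun p => ∑ i, ‖φ p (x i)‖, fun _ => by positivity, IsLittleO.fun_sum fun i _ =>
    (IsLittleO.of_bound fun e he => by simpa using h i e he), fun i => isBigO_of_le _ fun p =>
      (Finset.single_le_sum (f := fun i => ‖φ p (x i)‖) (fun _ _ => norm_nonneg _)
        (Finset.mem_univ i)).trans (le_abs_self _)⟩

end Vale.Agent.P354HI
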